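import Mathlib
import Vale.Agent.P041.SE.GKEnergy

set_option autoImplicit false

open Finset

namespace Vale.Agent.P054.Y.G

theorem pl_exists_perp (n : Fin 3 → ℝ) :
    ∃ u : Fin 3 → ℝ, 0 < u ⬝ᵥ u ∧ u ⬝ᵥ n = 0 := by
  by_cases h : n 0 = 0 ∧ n 1 = 0
  · refine ⟨![1, 0, 0], ?_, ?_⟩
    · simp [dotProduct, Fin.sum_univ_three]
    · simp [dotProduct, Fin.sum_univ_three, h.1]
  · refine ⟨![-(n 1), n 0, 0], ?_, ?_⟩
    · simp only [dotProduct, Fin.sum_univ_three, Matrix.cons_val_zero, Matrix.cons_val_one,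
        Matrix.cons_val]
      have h1 : 0 ≤ n 0 * n 0 := mul_self_nonneg _
      have h2 : 0 ≤ n 1 * n 1 := mul_self_nonneg _
      rcases lt_or_eq_of_le h1 with h3 | h3
      · nlinarith
      · rcases lt_or_eq_of_le h2 with h4 | h4
        · nlinarith
        · exact absurd ⟨mul_self_eq_zero.1 h3.symm, mul_self_eq_zero.1 h4.symm⟩ h
    · simp only [dotProduct, Fin.sum_univ_three, Matrix.cons_val_zero, Matrix.cons_val_one,
        Matrix.cons_val]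
      ring

theorem pl_dot_pos (n : Fin 3 → ℝ) (hn : n ≠ 0) : 0 < n ⬝ᵥ n := by
  have h : 0 ≤ n ⬝ᵥ n := by
    simp only [dotProduct, Fin.sum_univ_three]
    nlinarith [mul_self_nonneg (n 0), mul_self_nonneg (n 1), mul_self_nonneg (n 2)]
  rcases lt_or_eq_of_le h with h1 | h1
  · exact h1
  · exfalso
    apply hn
    simp only [dotProduct, Fin.sum_univ_three] at h1
    have a0 := mul_self_nonneg (n 0)
    have a1 := mul_self_nonneg (n 1)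
    have a2 := mul_self_nonneg (n 2)
    funext i
    fin_cases i
    · exact mul_self_eq_zero.1 (by simp only [Fin.zero_eta]; linarith)
    · exact mul_self_eq_zero.1 (by simp only [Fin.mk_one]; linarith)
    · exact mul_self_eq_zero.1 (by simp only [Fin.reduceFinMk]; linarith)

/-- a plane is isometric to `ℂ` -/
theorem pl_exists_iso (n : Fin 3 → ℝ) (hn : n ≠ 0) :
    ∃ φ : (Fin 3 → ℝ) → ℂ, ∀ a b, n ⬝ᵥ a = n ⬝ᵥ b →
      dist (φ a) (φ b) ^ 2 = (a - b) ⬝ᵥ (a - b) := by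
  obtain ⟨u, hu, hun⟩ := pl_exists_perp n
  have hnn := pl_dot_pos n hn
  set s : ℝ := Real.sqrt (u ⬝ᵥ u) with hs
  set t : ℝ := Real.sqrt (n ⬝ᵥ n) with ht
  have hs2 : s ^ 2 = u ⬝ᵥ u := Real.sq_sqrt hu.le
  have ht2 : t ^ 2 = n ⬝ᵥ n := Real.sq_sqrt hnn.le
  have hs0 : 0 < s := Real.sqrt_pos.2 hu
  have ht0 : 0 < t := Real.sqrt_pos.2 hnn
  refine ⟨fun a => ⟨(a ⬝ᵥ u) / s, (a 0 * (n 1 * u 2 - n 2 * u 1) + a 1 * (n 2 * u 0 - n 0 * u 2)
    + a 2 * (n 0 * u 1 - n 1 * u 0)) / (s * t)⟩, ?_⟩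
  intro a b hab
  rw [Complex.dist_eq, ← Complex.normSq_eq_norm_sq, Complex.normSq_apply]
  simp only [Complex.sub_re, Complex.sub_im]
  rw [← sub_div, ← sub_div, div_mul_div_comm, div_mul_div_comm]
  have e1 : s * s = u ⬝ᵥ u := by rw [← hs2]; ring
  have e2 : s * t * (s * t) = (u ⬝ᵥ u) * (n ⬝ᵥ n) := by rw [← hs2, ← ht2]; ring
  rw [e1, e2, div_add_div _ _ hu.ne' (mul_pos hu hnn).ne', div_eq_iff
    (mul_pos hu (mul_pos hu hnn)).ne']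
  have h3 : u 0 * n 0 + u 1 * n 1 + u 2 * n 2 = 0 := by
    simpa [dotProduct, Fin.sum_univ_three] using hun
  have h4 : n 0 * (a 0 - b 0) + n 1 * (a 1 - b 1) + n 2 * (a 2 - b 2) = 0 := by
    have : n 0 * a 0 + n 1 * a 1 + n 2 * a 2 = n 0 * b 0 + n 1 * b 1 + n 2 * b 2 := by
      simpa [dotProduct, Fin.sum_univ_three] using hab
    linarith
  have key : ∀ x0 x1 x2 : ℝ, n 0 * x0 + n 1 * x1 + n 2 * x2 = 0 →
      (x0 * (n 1 * u 2 - n 2 * u 1) + x1 * (n 2 * u 0 - n 0 * u 2)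
        + x2 * (n 0 * u 1 - n 1 * u 0)) ^ 2 =
      (u ⬝ᵥ u) * (n ⬝ᵥ n) * (x0 * x0 + x1 * x1 + x2 * x2)
        - (n ⬝ᵥ n) * (x0 * u 0 + x1 * u 1 + x2 * u 2) ^ 2 := by
    intro x0 x1 x2 hx
    simp only [dotProduct, Fin.sum_univ_three]
    have : (x0 * (n 1 * u 2 - n 2 * u 1) + x1 * (n 2 * u 0 - n 0 * u 2)
        + x2 * (n 0 * u 1 - n 1 * u 0)) ^ 2 =
      (u 0 * u 0 + u 1 * u 1 + u 2 * u 2) * (n 0 * n 0 + n 1 * n 1 + n 2 * n 2)
        * (x0 * x0 + x1 * x1 + x2 * x2)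
        - (n 0 * n 0 + n 1 * n 1 + n 2 * n 2) * (x0 * u 0 + x1 * u 1 + x2 * u 2) ^ 2
        + 2 * (n 0 * x0 + n 1 * x1 + n 2 * x2) * (u 0 * n 0 + u 1 * n 1 + u 2 * n 2)
          * (x0 * u 0 + x1 * u 1 + x2 * u 2)
        - (x0 * x0 + x1 * x1 + x2 * x2) * (u 0 * n 0 + u 1 * n 1 + u 2 * n 2) ^ 2
        - (u 0 * u 0 + u 1 * u 1 + u 2 * u 2) * (n 0 * x0 + n 1 * x1 + n 2 * x2) ^ 2 := by ring
    rw [this, hx, h3]; ring
  have k := key (a 0 - b 0) (a 1 - b 1) (a 2 - b 2) h4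
  have e3 : (a 0 * (n 1 * u 2 - n 2 * u 1) + a 1 * (n 2 * u 0 - n 0 * u 2)
      + a 2 * (n 0 * u 1 - n 1 * u 0)) - (b 0 * (n 1 * u 2 - n 2 * u 1)
      + b 1 * (n 2 * u 0 - n 0 * u 2) + b 2 * (n 0 * u 1 - n 1 * u 0)) =
      (a 0 - b 0) * (n 1 * u 2 - n 2 * u 1) + (a 1 - b 1) * (n 2 * u 0 - n 0 * u 2)
        + (a 2 - b 2) * (n 0 * u 1 - n 1 * u 0) := by ring
  have e4 : a ⬝ᵥ u - b ⬝ᵥ u = (a 0 - b 0) * u 0 + (a 1 - b 1) * u 1 + (a 2 - b 2) * u 2 := by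
    simp only [dotProduct, Fin.sum_univ_three]; ring
  have e5 : (a - b) ⬝ᵥ (a - b) = (a 0 - b 0) * (a 0 - b 0) + (a 1 - b 1) * (a 1 - b 1)
      + (a 2 - b 2) * (a 2 - b 2) := by
    simp only [dotProduct, Fin.sum_univ_three, Pi.sub_apply]
  rw [e3, e4, e5]
  rw [pow_two] at k
  rw [k]
  ring

/-- Cauchy–Schwarz for a map with values in `T` -/
theorem pl_cs {α : Type*} [DecidableEq α] (S : Finset α) (D : α → α → ℝ) (T : Finset ℝ)
    (hT : ∀ a ∈ S, ∀ b ∈ S, D a b ∈ T) :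
    (S.card ^ 2) ^ 2 ≤ T.card *
      ((((S ×ˢ S) ×ˢ (S ×ˢ S)).filter (fun q => D q.1.1 q.1.2 = D q.2.1 q.2.2)).card) := by
  classical
  have h1 : (S ×ˢ S).card = ∑ t ∈ T, ((S ×ˢ S).filter (fun p => D p.1 p.2 = t)).card :=
    card_eq_sum_card_fiberwise (fun p hp => by
      have hp' := mem_product.1 (mem_coe.1 hp)
      exact hT _ hp'.1 _ hp'.2)
  have h2 : (((S ×ˢ S) ×ˢ (S ×ˢ S)).filter
      (fun q => D q.1.1 q.1.2 = D q.2.1 q.2.2)).card =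
      ∑ t ∈ T, ((S ×ˢ S).filter (fun p => D p.1 p.2 = t)).card ^ 2 := by
    rw [card_eq_sum_card_fiberwise (f := fun q : (α × α) × (α × α) => D q.1.1 q.1.2) (t := T)
      (fun q hq => by
        have hq' := (mem_filter.1 (mem_coe.1 hq)).1
        rw [mem_product, mem_product] at hq'
        exact hT _ hq'.1.1 _ hq'.1.2)]
    refine sum_congr rfl (fun t _ => ?_)
    rw [sq, ← card_product]
    congr 1
    ext q
    simp only [mem_filter, mem_product]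
    constructor
    · rintro ⟨⟨⟨h1, h2⟩, h3⟩, h4⟩
      exact ⟨⟨h1, h4⟩, ⟨h2, h3 ▸ h4⟩⟩
    · rintro ⟨⟨h1, h2⟩, ⟨h3, h4⟩⟩
      exact ⟨⟨⟨h1, h3⟩, h2.trans h4.symm⟩, h2⟩
  have h3 : (S.card ^ 2) = (S ×ˢ S).card := by rw [card_product, sq]
  rw [h3, h1, h2]
  exact sq_sum_le_card_mul_sum_sq

/-- few points on a plane if there are few distances -/
theorem planar_bound (e : ℝ) (he : 0 < e) : ∃ C : ℝ, 0 < C ∧
    ∀ (P : Finset (Fin 3 → ℝ)) (T : Finset ℝ),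
      (∀ a ∈ P, ∀ b ∈ P, (a - b) ⬝ᵥ (a - b) ∈ T) →
      ∀ (n : Fin 3 → ℝ) (d : ℝ), n ≠ 0 →
        ((P.filter (fun a => n ⬝ᵥ a = d)).card : ℝ) ≤ C * (T.card : ℝ) ^ (1 + e) := by
  classical
  obtain ⟨C, hC, hGK⟩ := Vale.Agent.P041.SE.gk_energy (e / (1 + e)) (by positivity)
  refine ⟨C ^ (1 + e), by positivity, ?_⟩
  intro P T hT n d hn
  obtain ⟨φ, hφ⟩ := pl_exists_iso n hn
  set S := P.filter (fun a => n ⬝ᵥ a = d) with hS
  have hmem : ∀ a ∈ S, a ∈ P ∧ n ⬝ᵥ a = d := fun a ha => mem_filter.1 ha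
  rcases Nat.eq_zero_or_pos S.card with h0 | hpos
  · rw [h0]
    push_cast
    positivity
  have hinj : Set.InjOn φ (S : Set (Fin 3 → ℝ)) := by
    intro a ha b hb hab
    have h1 := hφ a b (((hmem a ha).2).trans ((hmem b hb).2).symm)
    rw [hab, dist_self] at h1
    by_contra hne
    have h2 := pl_dot_pos (a - b) (sub_ne_zero.2 hne)
    rw [← h1] at h2
    norm_num at h2
  set K := S.image φ with hK
  have hKc : K.card = S.card := card_image_of_injOn hinj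
  have h1 := hGK K
  rw [hKc] at h1
  set k : ℝ := (S.card : ℝ) with hk
  have hk1 : (1 : ℝ) ≤ k := by rw [hk]; exact_mod_cast hpos
  have hk0 : (0 : ℝ) < k := by linarith
  have hcs := pl_cs S (fun a b => (a - b) ⬝ᵥ (a - b)) T
    (fun a ha b hb => hT a (hmem a ha).1 b (hmem b hb).1)
  have hle : (((S ×ˢ S) ×ˢ (S ×ˢ S)).filter
      (fun q => (q.1.1 - q.1.2) ⬝ᵥ (q.1.1 - q.1.2) =
        (q.2.1 - q.2.2) ⬝ᵥ (q.2.1 - q.2.2))).card ≤
      (((K ×ˢ K) ×ˢ (K ×ˢ K)).filter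
      (fun q => dist q.1.1 q.1.2 = dist q.2.1 q.2.2)).card := by
    apply card_le_card_of_injOn (fun q => ((φ q.1.1, φ q.1.2), (φ q.2.1, φ q.2.2)))
    · rintro ⟨⟨a, b⟩, ⟨c, d'⟩⟩ hq
      have hq' := mem_filter.1 (mem_coe.1 hq)
      simp only [mem_product] at hq'
      obtain ⟨⟨⟨ha, hb⟩, hc, hd⟩, hdist⟩ := hq'
      rw [mem_coe, mem_filter]
      simp only [mem_product]
      refine ⟨⟨⟨mem_image_of_mem _ ha, mem_image_of_mem _ hb⟩,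
        mem_image_of_mem _ hc, mem_image_of_mem _ hd⟩, ?_⟩
      have e1 := hφ a b (((hmem a ha).2).trans ((hmem b hb).2).symm)
      have e2 := hφ c d' (((hmem c hc).2).trans ((hmem d' hd).2).symm)
      rw [hdist, ← e2] at e1
      exact (sq_eq_sq₀ dist_nonneg dist_nonneg).1 e1
    · rintro ⟨⟨a, b⟩, ⟨c, d1⟩⟩ hq ⟨⟨a', b'⟩, ⟨c', d1'⟩⟩ hq' h
      have hq1 := (mem_filter.1 (mem_coe.1 hq)).1
      have hq2 := (mem_filter.1 (mem_coe.1 hq')).1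
      simp only [mem_product] at hq1 hq2
      simp only [Prod.mk.injEq] at h ⊢
      exact ⟨⟨hinj hq1.1.1 hq2.1.1 h.1.1, hinj hq1.1.2 hq2.1.2 h.1.2⟩,
        hinj hq1.2.1 hq2.2.1 h.2.1, hinj hq1.2.2 hq2.2.2 h.2.2⟩
  have hcs2 : k ^ 4 ≤ (T.card : ℝ) * (C * k ^ (3 + e / (1 + e))) := by
    have h2 : ((S.card ^ 2) ^ 2 : ℕ) ≤ T.card * (((K ×ˢ K) ×ˢ (K ×ˢ K)).filter
      (fun q => dist q.1.1 q.1.2 = dist q.2.1 q.2.2)).card :=
      hcs.trans (Nat.mul_le_mul_left _ hle)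
    have h3 : (((S.card ^ 2) ^ 2 : ℕ) : ℝ) ≤ (T.card : ℝ) * ((((K ×ˢ K) ×ˢ (K ×ˢ K)).filter
      (fun q => dist q.1.1 q.1.2 = dist q.2.1 q.2.2)).card : ℝ) := by exact_mod_cast h2
    have h4 : (((S.card ^ 2) ^ 2 : ℕ) : ℝ) = k ^ 4 := by push_cast; ring
    rw [← h4]
    exact h3.trans (mul_le_mul_of_nonneg_left h1 (Nat.cast_nonneg _))
  have e1 : k ^ (1 / (1 + e)) * k ^ (3 + e / (1 + e)) = k ^ 4 := by
    rw [← Real.rpow_add hk0, ← Real.rpow_natCast]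
    congr 1
    field_simp
    push_cast
    ring
  have h5 : k ^ (1 / (1 + e)) ≤ C * (T.card : ℝ) := by
    have hp : 0 < k ^ (3 + e / (1 + e)) := Real.rpow_pos_of_pos hk0 _
    rw [← e1] at hcs2
    have : k ^ (1 / (1 + e)) * k ^ (3 + e / (1 + e)) ≤
        (C * (T.card : ℝ)) * k ^ (3 + e / (1 + e)) := by linarith [hcs2]
    exact le_of_mul_le_mul_right this hp
  have h6 : (k ^ (1 / (1 + e))) ^ (1 + e) ≤ (C * (T.card : ℝ)) ^ (1 + e) :=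
    Real.rpow_le_rpow (by positivity) h5 (by positivity)
  rw [← Real.rpow_mul hk0.le, one_div, inv_mul_cancel₀ (by positivity), Real.rpow_one,
    Real.mul_rpow hC.le (Nat.cast_nonneg _)] at h6
  exact h6

end Vale.Agent.P054.Y.G
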