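import Mathlib.LinearAlgebra.CrossProduct
import Mathlib.LinearAlgebra.Matrix.Determinant.Basic
import Mathlib.LinearAlgebra.Matrix.Symmetric
import Mathlib.Algebra.Order.BigOperators.Ring.Finset
import Mathlib.Algebra.Order.Chebyshev
import Mathlib.Tactic

/-! P054, block G, leaf (10): two different conics share at most four directions; packing (helper686) -/

set_option linter.all false
set_option autoImplicit false

namespace Vale.Agent.P054.Y.G

open Finset Matrix

/-- the quadratic form of a `3 × 3` matrix -/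
def qf (S : Matrix (Fin 3) (Fin 3) ℝ) (x : Fin 3 → ℝ) : ℝ := x ⬝ᵥ S *ᵥ x

/-- the bilinear form of a `3 × 3` matrix -/
def bf (S : Matrix (Fin 3) (Fin 3) ℝ) (x y : Fin 3 → ℝ) : ℝ := x ⬝ᵥ S *ᵥ y

/-- triple product -/
def ctrip (x y z : Fin 3 → ℝ) : ℝ :=
  x 0 * (y 1 * z 2 - y 2 * z 1) - x 1 * (y 0 * z 2 - y 2 * z 0) + x 2 * (y 0 * z 1 - y 1 * z 0)

/-- determinant of the Gram matrix of a form -/
lemma det_gram (S : Matrix (Fin 3) (Fin 3) ℝ) (x y z : Fin 3 → ℝ) :
    (Matrix.of ![![bf S x x, bf S x y, bf S x z], ![bf S y x, bf S y y, bf S y z],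
      ![bf S z x, bf S z y, bf S z z]]).det = S.det * ctrip x y z ^ 2 := by
  simp only [Matrix.det_fin_three, bf, mulVec, dotProduct, Fin.sum_univ_three, ctrip, Matrix.of_apply,
    Matrix.cons_val_zero, Matrix.cons_val_one, Matrix.cons_val]
  ring

lemma bf_comm {S : Matrix (Fin 3) (Fin 3) ℝ} (hS : Sᵀ = S) (x y : Fin 3 → ℝ) : bf S x y = bf S y x := by
  have h01 : S 1 0 = S 0 1 := congrFun (congrFun hS 0) 1
  have h02 : S 2 0 = S 0 2 := congrFun (congrFun hS 0) 2
  have h12 : S 2 1 = S 1 2 := congrFun (congrFun hS 1) 2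
  simp only [bf, mulVec, dotProduct, Fin.sum_univ_three, h01, h02, h12]
  ring

lemma bf_self (S : Matrix (Fin 3) (Fin 3) ℝ) (x : Fin 3 → ℝ) : bf S x x = qf S x := rfl

lemma crs_ne {x y : Fin 3 → ℝ} (h : crossProduct x y ≠ 0) :
    0 < (x 1 * y 2 - x 2 * y 1) ^ 2 + (x 2 * y 0 - x 0 * y 2) ^ 2 + (x 0 * y 1 - x 1 * y 0) ^ 2 := by
  by_contra hn
  apply h
  have a0 := sq_nonneg (x 1 * y 2 - x 2 * y 1)
  have a1 := sq_nonneg (x 2 * y 0 - x 0 * y 2)
  have a2 := sq_nonneg (x 0 * y 1 - x 1 * y 0)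
  have h0 : (x 1 * y 2 - x 2 * y 1) = 0 := by
    have : (x 1 * y 2 - x 2 * y 1) ^ 2 = 0 := by linarith
    exact pow_eq_zero_iff (two_ne_zero) |>.1 this
  have h1 : (x 2 * y 0 - x 0 * y 2) = 0 := by
    have : (x 2 * y 0 - x 0 * y 2) ^ 2 = 0 := by linarith
    exact pow_eq_zero_iff (two_ne_zero) |>.1 this
  have h2 : (x 0 * y 1 - x 1 * y 0) = 0 := by
    have : (x 0 * y 1 - x 1 * y 0) ^ 2 = 0 := by linarith
    exact pow_eq_zero_iff (two_ne_zero) |>.1 this
  rw [cross_apply]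
  ext i
  fin_cases i
  · simpa using h0
  · simpa using h1
  · simpa using h2

lemma crs_zero {x y : Fin 3 → ℝ} (h0 : x 1 * y 2 - x 2 * y 1 = 0) (h1 : x 2 * y 0 - x 0 * y 2 = 0)
    (h2 : x 0 * y 1 - x 1 * y 0 = 0) : crossProduct x y = 0 := by
  rw [cross_apply]
  ext i
  fin_cases i
  · simpa using h0
  · simpa using h1
  · simpa using h2

/-- three pairwise independent isotropic vectors of a nondegenerate symmetric form are independent -/
lemma trip_ne_zero {S : Matrix (Fin 3) (Fin 3) ℝ} (hS : Sᵀ = S) (hd : S.det ≠ 0) {x y z : Fin 3 → ℝ}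
    (hx : qf S x = 0) (hy : qf S y = 0) (hz : qf S z = 0)
    (hxy : crossProduct x y ≠ 0) (hxz : crossProduct x z ≠ 0) (hyz : crossProduct y z ≠ 0) :
    ctrip x y z ≠ 0 := by
  intro ht
  have hN := crs_ne hxy
  set N := (x 1 * y 2 - x 2 * y 1) ^ 2 + (x 2 * y 0 - x 0 * y 2) ^ 2 + (x 0 * y 1 - x 1 * y 0) ^ 2 with hNd
  -- `bf x y ≠ 0`
  have hb : bf S x y ≠ 0 := by
    intro hb
    have h1 := det_gram S x y ![x 1 * y 2 - x 2 * y 1, x 2 * y 0 - x 0 * y 2, x 0 * y 1 - x 1 * y 0]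
    have hb' : bf S y x = 0 := by rw [bf_comm hS]; exact hb
    rw [bf_self, bf_self, hx, hy, hb, hb'] at h1
    have h2 : ctrip x y ![x 1 * y 2 - x 2 * y 1, x 2 * y 0 - x 0 * y 2, x 0 * y 1 - x 1 * y 0] = N := by
      simp only [ctrip, Matrix.cons_val_zero, Matrix.cons_val_one, Matrix.cons_val, hNd]
      ring
    rw [h2] at h1
    have h3 : S.det * N ^ 2 = 0 := by
      rw [← h1, Matrix.det_fin_three]
      simp only [Matrix.of_apply, Matrix.cons_val_zero, Matrix.cons_val_one, Matrix.cons_val]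
      ring
    rcases mul_eq_zero.1 h3 with h4 | h4
    · exact hd h4
    · exact absurd (pow_eq_zero_iff (two_ne_zero) |>.1 h4) hN.ne'
  -- coordinates of `z`
  set c0 := x 1 * y 2 - x 2 * y 1 with hc0
  set c1 := x 2 * y 0 - x 0 * y 2 with hc1
  set c2 := x 0 * y 1 - x 1 * y 0 with hc2
  set p := (z 1 * y 2 - z 2 * y 1) * c0 + (z 2 * y 0 - z 0 * y 2) * c1 + (z 0 * y 1 - z 1 * y 0) * c2 with hp
  set q := (x 1 * z 2 - x 2 * z 1) * c0 + (x 2 * z 0 - x 0 * z 2) * c1 + (x 0 * z 1 - x 1 * z 0) * c2 with hq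
  have e0 : N * z 0 = p * x 0 + q * y 0 := by
    have : N * z 0 - (p * x 0 + q * y 0) = ctrip x y z * c0 := by
      simp only [hNd, hp, hq, hc0, hc1, hc2, ctrip]; ring
    rw [ht, zero_mul] at this; linarith
  have e1 : N * z 1 = p * x 1 + q * y 1 := by
    have : N * z 1 - (p * x 1 + q * y 1) = ctrip x y z * c1 := by
      simp only [hNd, hp, hq, hc0, hc1, hc2, ctrip]; ring
    rw [ht, zero_mul] at this; linarith
  have e2 : N * z 2 = p * x 2 + q * y 2 := by
    have : N * z 2 - (p * x 2 + q * y 2) = ctrip x y z * c2 := by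
      simp only [hNd, hp, hq, hc0, hc1, hc2, ctrip]; ring
    rw [ht, zero_mul] at this; linarith
  have h3 : N ^ 2 * qf S z = p ^ 2 * qf S x + q ^ 2 * qf S y + 2 * (p * q) * bf S x y := by
    have h01 : S 1 0 = S 0 1 := congrFun (congrFun hS 0) 1
    have h02 : S 2 0 = S 0 2 := congrFun (congrFun hS 0) 2
    have h12 : S 2 1 = S 1 2 := congrFun (congrFun hS 1) 2
    have : N ^ 2 * qf S z = S 0 0 * (N * z 0) ^ 2 + S 1 1 * (N * z 1) ^ 2 + S 2 2 * (N * z 2) ^ 2 +
        2 * S 0 1 * ((N * z 0) * (N * z 1)) + 2 * S 0 2 * ((N * z 0) * (N * z 2)) +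
        2 * S 1 2 * ((N * z 1) * (N * z 2)) := by
      simp only [qf, mulVec, dotProduct, Fin.sum_univ_three, h01, h02, h12]; ring
    rw [this, e0, e1, e2]
    simp only [qf, bf, mulVec, dotProduct, Fin.sum_univ_three, h01, h02, h12]
    ring
  rw [hx, hy, hz] at h3
  have h4 : p * q = 0 := by
    have : (p * q) * bf S x y = 0 := by linarith
    rcases mul_eq_zero.1 this with h5 | h5
    · exact h5
    · exact absurd h5 hb
  rcases mul_eq_zero.1 h4 with h5 | h5
  · -- z parallel to y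
    rw [h5] at e0 e1 e2
    apply hyz
    apply crs_zero
    · have : N * (y 1 * z 2 - y 2 * z 1) = y 1 * (N * z 2) - y 2 * (N * z 1) := by ring
      rw [e1, e2] at this
      have h6 : N * (y 1 * z 2 - y 2 * z 1) = 0 := by rw [this]; ring
      exact (mul_eq_zero.1 h6).resolve_left hN.ne'
    · have : N * (y 2 * z 0 - y 0 * z 2) = y 2 * (N * z 0) - y 0 * (N * z 2) := by ring
      rw [e0, e2] at this
      have h6 : N * (y 2 * z 0 - y 0 * z 2) = 0 := by rw [this]; ring
      exact (mul_eq_zero.1 h6).resolve_left hN.ne'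
    · have : N * (y 0 * z 1 - y 1 * z 0) = y 0 * (N * z 1) - y 1 * (N * z 0) := by ring
      rw [e0, e1] at this
      have h6 : N * (y 0 * z 1 - y 1 * z 0) = 0 := by rw [this]; ring
      exact (mul_eq_zero.1 h6).resolve_left hN.ne'
  · rw [h5] at e0 e1 e2
    apply hxz
    apply crs_zero
    · have : N * (x 1 * z 2 - x 2 * z 1) = x 1 * (N * z 2) - x 2 * (N * z 1) := by ring
      rw [e1, e2] at this
      have h6 : N * (x 1 * z 2 - x 2 * z 1) = 0 := by rw [this]; ring
      exact (mul_eq_zero.1 h6).resolve_left hN.ne'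
    · have : N * (x 2 * z 0 - x 0 * z 2) = x 2 * (N * z 0) - x 0 * (N * z 2) := by ring
      rw [e0, e2] at this
      have h6 : N * (x 2 * z 0 - x 0 * z 2) = 0 := by rw [this]; ring
      exact (mul_eq_zero.1 h6).resolve_left hN.ne'
    · have : N * (x 0 * z 1 - x 1 * z 0) = x 0 * (N * z 1) - x 1 * (N * z 0) := by ring
      rw [e0, e1] at this
      have h6 : N * (x 0 * z 1 - x 1 * z 0) = 0 := by rw [this]; ring
      exact (mul_eq_zero.1 h6).resolve_left hN.ne'

/-- expansion of the form in a basis of isotropic vectors -/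
lemma qf_basis {S : Matrix (Fin 3) (Fin 3) ℝ} (hS : Sᵀ = S) (x y z w : Fin 3 → ℝ) :
    ctrip x y z ^ 2 * qf S w = ctrip w y z ^ 2 * qf S x + ctrip x w z ^ 2 * qf S y + ctrip x y w ^ 2 * qf S z +
      2 * (ctrip w y z * ctrip x w z) * bf S x y + 2 * (ctrip w y z * ctrip x y w) * bf S x z +
      2 * (ctrip x w z * ctrip x y w) * bf S y z := by
  have h01 : S 1 0 = S 0 1 := congrFun (congrFun hS 0) 1
  have h02 : S 2 0 = S 0 2 := congrFun (congrFun hS 0) 2
  have h12 : S 2 1 = S 1 2 := congrFun (congrFun hS 1) 2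
  have e : ∀ i, ctrip x y z * w i = ctrip w y z * x i + ctrip x w z * y i + ctrip x y w * z i := by
    intro i
    fin_cases i <;> simp only [ctrip, Fin.zero_eta, Fin.mk_one, Fin.reduceFinMk] <;> ring
  have h1 : ctrip x y z ^ 2 * qf S w = S 0 0 * (ctrip x y z * w 0) ^ 2 + S 1 1 * (ctrip x y z * w 1) ^ 2 +
      S 2 2 * (ctrip x y z * w 2) ^ 2 + 2 * S 0 1 * ((ctrip x y z * w 0) * (ctrip x y z * w 1)) +
      2 * S 0 2 * ((ctrip x y z * w 0) * (ctrip x y z * w 2)) +
      2 * S 1 2 * ((ctrip x y z * w 1) * (ctrip x y z * w 2)) := by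
    simp only [qf, mulVec, dotProduct, Fin.sum_univ_three, h01, h02, h12]; ring
  rw [h1, e 0, e 1, e 2]
  generalize ctrip w y z = α
  generalize ctrip x w z = β
  generalize ctrip x y w = γ
  simp only [qf, bf, mulVec, dotProduct, Fin.sum_univ_three, h01, h02, h12]
  ring

lemma trip_swap12 (x y z : Fin 3 → ℝ) : ctrip y x z = -ctrip x y z := by simp only [ctrip]; ring
lemma trip_swap23 (x y z : Fin 3 → ℝ) : ctrip x z y = -ctrip x y z := by simp only [ctrip]; ring

lemma qf_eq_iff {S S' : Matrix (Fin 3) (Fin 3) ℝ} (hS : Sᵀ = S) (hS' : S'ᵀ = S') {c : ℝ}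
    (h : ∀ w, qf S' w = c * qf S w) : S' = c • S := by
  have h01 : S 1 0 = S 0 1 := congrFun (congrFun hS 0) 1
  have h02 : S 2 0 = S 0 2 := congrFun (congrFun hS 0) 2
  have h12 : S 2 1 = S 1 2 := congrFun (congrFun hS 1) 2
  have k01 : S' 1 0 = S' 0 1 := congrFun (congrFun hS' 0) 1
  have k02 : S' 2 0 = S' 0 2 := congrFun (congrFun hS' 0) 2
  have k12 : S' 2 1 = S' 1 2 := congrFun (congrFun hS' 1) 2
  have e1 := h ![1, 0, 0]
  have e2 := h ![0, 1, 0]
  have e3 := h ![0, 0, 1]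
  have e4 := h ![1, 1, 0]
  have e5 := h ![1, 0, 1]
  have e6 := h ![0, 1, 1]
  simp only [qf, mulVec, dotProduct, Fin.sum_univ_three, h01, h02, h12, k01, k02, k12,
    Matrix.cons_val_zero, Matrix.cons_val_one, Matrix.cons_val] at e1 e2 e3 e4 e5 e6
  ext i j
  fin_cases i <;> fin_cases j <;>
    simp only [Matrix.smul_apply, smul_eq_mul, Fin.zero_eta, Fin.mk_one, Fin.reduceFinMk, h01, h02, h12,
      k01, k02, k12] <;> linarith

lemma conic_alg {a1 a2 a3 b1 b2 b3 p q r p' q' r' : ℝ} (ha2 : a2 ≠ 0) (ha3 : a3 ≠ 0)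
    (hb2 : b2 ≠ 0) (hb3 : b3 ≠ 0)
    (e1 : a1 * a2 * p + a1 * a3 * q + a2 * a3 * r = 0) (e2 : b1 * b2 * p + b1 * b3 * q + b2 * b3 * r = 0)
    (f1 : a1 * a2 * p' + a1 * a3 * q' + a2 * a3 * r' = 0)
    (f2 : b1 * b2 * p' + b1 * b3 * q' + b2 * b3 * r' = 0)
    (hpar : ¬ (a1 * b2 = b1 * a2 ∧ a1 * b3 = b1 * a3)) (hne : ¬ (p = 0 ∧ q = 0 ∧ r = 0)) :
    ∃ c : ℝ, p' = c * p ∧ q' = c * q ∧ r' = c * r := by
  by_cases hD : a1 * b2 = b1 * a2
  · have hF : a1 * b3 - b1 * a3 ≠ 0 := fun h => hpar ⟨hD, by linarith⟩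
    have hp : p = 0 := by
      have : (a2 * b2 * (a1 * b3 - b1 * a3)) * p = 0 := by
        linear_combination (b2 * b3) * e1 - (a2 * a3) * e2 - (a3 * b3 * q) * hD
      exact (mul_eq_zero.1 this).resolve_left (mul_ne_zero (mul_ne_zero ha2 hb2) hF)
    have hp' : p' = 0 := by
      have : (a2 * b2 * (a1 * b3 - b1 * a3)) * p' = 0 := by
        linear_combination (b2 * b3) * f1 - (a2 * a3) * f2 - (a3 * b3 * q') * hD
      exact (mul_eq_zero.1 this).resolve_left (mul_ne_zero (mul_ne_zero ha2 hb2) hF)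
    have hr : a2 * r = -(a1 * q) := by
      have : a3 * (a2 * r + a1 * q) = 0 := by rw [hp] at e1; linarith
      have := (mul_eq_zero.1 this).resolve_left ha3
      linarith
    have hr' : a2 * r' = -(a1 * q') := by
      have : a3 * (a2 * r' + a1 * q') = 0 := by rw [hp'] at f1; linarith
      have := (mul_eq_zero.1 this).resolve_left ha3
      linarith
    have hq : q ≠ 0 := by
      intro h
      apply hne
      refine ⟨hp, h, ?_⟩
      rw [h, mul_zero, neg_zero] at hr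
      exact (mul_eq_zero.1 hr).resolve_left ha2
    refine ⟨q' / q, by rw [hp, hp', mul_zero], by field_simp, ?_⟩
    have : a2 * (r' - q' / q * r) = 0 := by
      have a : a2 * (r' - q' / q * r) = a2 * r' - q' / q * (a2 * r) := by ring
      rw [a, hr, hr']
      field_simp
      ring
    have := (mul_eq_zero.1 this).resolve_left ha2
    linarith
  · have hD' : a1 * b2 - b1 * a2 ≠ 0 := sub_ne_zero.2 hD
    have hK : a3 * b3 * (a1 * b2 - b1 * a2) ≠ 0 := mul_ne_zero (mul_ne_zero ha3 hb3) hD'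
    have hq : (a3 * b3 * (a1 * b2 - b1 * a2)) * q = -(a2 * b2 * (a1 * b3 - b1 * a3)) * p := by
      linear_combination (b2 * b3) * e1 - (a2 * a3) * e2
    have hq' : (a3 * b3 * (a1 * b2 - b1 * a2)) * q' = -(a2 * b2 * (a1 * b3 - b1 * a3)) * p' := by
      linear_combination (b2 * b3) * f1 - (a2 * a3) * f2
    have hr : (a3 * b3 * (a1 * b2 - b1 * a2)) * r = (a1 * b1 * (a2 * b3 - b2 * a3)) * p := by
      linear_combination (-(b1 * b3)) * e1 + (a1 * a3) * e2
    have hr' : (a3 * b3 * (a1 * b2 - b1 * a2)) * r' = (a1 * b1 * (a2 * b3 - b2 * a3)) * p' := by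
      linear_combination (-(b1 * b3)) * f1 + (a1 * a3) * f2
    have hp : p ≠ 0 := by
      intro h
      apply hne
      rw [h, mul_zero] at hq hr
      exact ⟨h, (mul_eq_zero.1 hq).resolve_left hK, (mul_eq_zero.1 hr).resolve_left hK⟩
    refine ⟨p' / p, by field_simp, ?_, ?_⟩
    · have : (a3 * b3 * (a1 * b2 - b1 * a2)) * (q' - p' / p * q) = 0 := by
        have a : (a3 * b3 * (a1 * b2 - b1 * a2)) * (q' - p' / p * q) =
          (a3 * b3 * (a1 * b2 - b1 * a2)) * q' - p' / p * ((a3 * b3 * (a1 * b2 - b1 * a2)) * q) := by ring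
        rw [a, hq, hq']
        field_simp
        ring
      have := (mul_eq_zero.1 this).resolve_left hK
      linarith
    · have : (a3 * b3 * (a1 * b2 - b1 * a2)) * (r' - p' / p * r) = 0 := by
        have a : (a3 * b3 * (a1 * b2 - b1 * a2)) * (r' - p' / p * r) =
          (a3 * b3 * (a1 * b2 - b1 * a2)) * r' - p' / p * ((a3 * b3 * (a1 * b2 - b1 * a2)) * r) := by ring
        rw [a, hr, hr']
        field_simp
        ring
      have := (mul_eq_zero.1 this).resolve_left hK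
      linarith

/-- two conics, one nondegenerate, with five common points are proportional -/
theorem conic_five {S S' : Matrix (Fin 3) (Fin 3) ℝ} (hS : Sᵀ = S) (hS' : S'ᵀ = S') (hd : S.det ≠ 0)
    {x y z w v : Fin 3 → ℝ} (hxy : crossProduct x y ≠ 0) (hxz : crossProduct x z ≠ 0)
    (hxw : crossProduct x w ≠ 0) (hxv : crossProduct x v ≠ 0) (hyz : crossProduct y z ≠ 0)
    (hyw : crossProduct y w ≠ 0) (hyv : crossProduct y v ≠ 0) (hzw : crossProduct z w ≠ 0)
    (hzv : crossProduct z v ≠ 0) (hwv : crossProduct w v ≠ 0)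
    (qx : qf S x = 0) (qy : qf S y = 0) (qz : qf S z = 0) (qw : qf S w = 0) (qv : qf S v = 0)
    (qx' : qf S' x = 0) (qy' : qf S' y = 0) (qz' : qf S' z = 0) (qw' : qf S' w = 0) (qv' : qf S' v = 0) :
    ∃ c : ℝ, S' = c • S := by
  have ng : ∀ {a b : Fin 3 → ℝ}, crossProduct a b ≠ 0 → crossProduct b a ≠ 0 := by
    intro a b h h1
    apply h
    rw [← cross_anticomm, h1, neg_zero]
  have T := trip_ne_zero hS hd qx qy qz hxy hxz hyz
  have w1 := trip_ne_zero hS hd qw qy qz (ng hyw) (ng hzw) hyz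
  have w2 := trip_ne_zero hS hd qx qw qz hxw hxz (ng hzw)
  have w3 := trip_ne_zero hS hd qx qy qw hxy hxw hyw
  have v1 := trip_ne_zero hS hd qv qy qz (ng hyv) (ng hzv) hyz
  have v2 := trip_ne_zero hS hd qx qv qz hxv hxz (ng hzv)
  have v3 := trip_ne_zero hS hd qx qy qv hxy hxv hyv
  -- equations
  have E1 := qf_basis hS x y z w
  have E2 := qf_basis hS x y z v
  have E1' := qf_basis hS' x y z w
  have E2' := qf_basis hS' x y z v
  rw [qx, qy, qz, qw] at E1
  rw [qx, qy, qz, qv] at E2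
  rw [qx', qy', qz', qw'] at E1'
  rw [qx', qy', qz', qv'] at E2'
  -- `w`, `v` are not parallel
  have hpar : ¬ (ctrip w y z * ctrip x v z = ctrip v y z * ctrip x w z ∧
      ctrip w y z * ctrip x y v = ctrip v y z * ctrip x y w) := by
    rintro ⟨p1, p2⟩
    apply hwv
    have e : ∀ i, ctrip x y z * w i = ctrip w y z * x i + ctrip x w z * y i + ctrip x y w * z i := by
      intro i
      fin_cases i <;> simp only [ctrip, Fin.zero_eta, Fin.mk_one, Fin.reduceFinMk] <;> ring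
    have e' : ∀ i, ctrip x y z * v i = ctrip v y z * x i + ctrip x v z * y i + ctrip x y v * z i := by
      intro i
      fin_cases i <;> simp only [ctrip, Fin.zero_eta, Fin.mk_one, Fin.reduceFinMk] <;> ring
    have k : ∀ i, ctrip v y z * w i = ctrip w y z * v i := by
      intro i
      have : ctrip x y z * (ctrip v y z * w i - ctrip w y z * v i) = 0 := by
        have a1 : ctrip x y z * (ctrip v y z * w i - ctrip w y z * v i) =
          ctrip v y z * (ctrip x y z * w i) - ctrip w y z * (ctrip x y z * v i) := by ring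
        rw [a1, e i, e' i]
        linear_combination (-(y i)) * p1 - (z i) * p2
      have := (mul_eq_zero.1 this).resolve_left T
      linarith
    have k2 : ∀ i j, w i * v j - w j * v i = 0 := by
      intro i j
      have : ctrip v y z * (w i * v j - w j * v i) = 0 := by
        have a1 : ctrip v y z * (w i * v j - w j * v i) = (ctrip v y z * w i) * v j - (ctrip v y z * w j) * v i := by
          ring
        rw [a1, k i, k j]; ring
      exact (mul_eq_zero.1 this).resolve_left v1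
    exact crs_zero (k2 1 2) (k2 2 0) (k2 0 1)
  have hne : ¬ (bf S x y = 0 ∧ bf S x z = 0 ∧ bf S y z = 0) := by
    rintro ⟨h1, h2, h3⟩
    have h4 : ∀ u, qf S u = 0 * qf S u := by
      intro u
      have h5 := qf_basis hS x y z u
      rw [qx, qy, qz, h1, h2, h3] at h5
      have h6 : ctrip x y z ^ 2 * qf S u = 0 := by rw [h5]; ring
      rw [(mul_eq_zero.1 h6).resolve_left (pow_ne_zero 2 T)]; ring
    have h5 := qf_eq_iff hS hS h4
    rw [zero_smul] at h5
    rw [h5, Matrix.det_zero] at hd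
    exact hd rfl
  obtain ⟨c, c1, c2, c3⟩ := conic_alg (a1 := ctrip w y z) (a2 := ctrip x w z) (a3 := ctrip x y w)
    (b1 := ctrip v y z) (b2 := ctrip x v z) (b3 := ctrip x y v) (p := bf S x y) (q := bf S x z) (r := bf S y z)
    (p' := bf S' x y) (q' := bf S' x z) (r' := bf S' y z) w2 w3 v2 v3 (by linarith) (by linarith)
    (by linarith) (by linarith) hpar hne
  refine ⟨c, qf_eq_iff hS hS' fun u => ?_⟩
  have h1 := qf_basis hS x y z u
  have h2 := qf_basis hS' x y z u
  rw [qx, qy, qz] at h1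
  rw [qx', qy', qz', c1, c2, c3] at h2
  have h3 : ctrip x y z ^ 2 * (qf S' u - c * qf S u) = 0 := by
    have : ctrip x y z ^ 2 * (qf S' u - c * qf S u) = ctrip x y z ^ 2 * qf S' u - c * (ctrip x y z ^ 2 * qf S u) := by
      ring
    rw [this, h1, h2]; ring
  have := (mul_eq_zero.1 h3).resolve_left (pow_ne_zero 2 T)
  linarith

/-- packing: few large sets with small pairwise intersections -/
theorem packing {ι α : Type} [DecidableEq α] (V : Finset α) (I : Finset ι) (A : ι → Finset α)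
    (hA : ∀ i ∈ I, A i ⊆ V) {h r : ℝ} (hr : 0 ≤ r) (hh : 0 < h) (hc : ∀ i ∈ I, h ≤ ((A i).card : ℝ))
    (hi : ∀ i ∈ I, ∀ j ∈ I, i ≠ j → (((A i) ∩ (A j)).card : ℝ) ≤ r)
    (hb : 2 * r * V.card ≤ h ^ 2) : (I.card : ℝ) * h ≤ 2 * V.card := by
  classical
  set S : ℝ := ∑ i ∈ I, ((A i).card : ℝ) with hS
  have hkS : (I.card : ℝ) * h ≤ S := by
    rw [hS, ← nsmul_eq_mul, ← Finset.sum_const]
    exact Finset.sum_le_sum hc
  -- `S = ∑ₓ d(x)`
  have h1 : S = ∑ x ∈ V, ((I.filter fun i => x ∈ A i).card : ℝ) := by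
    have : ∀ i ∈ I, ((A i).card : ℝ) = ∑ x ∈ V, if x ∈ A i then (1 : ℝ) else 0 := by
      intro i hi'
      rw [← Finset.sum_filter, Finset.sum_const, nsmul_eq_mul, mul_one]
      congr 2
      ext x
      simp only [Finset.mem_filter]
      exact ⟨fun hx => ⟨hA i hi' hx, hx⟩, fun hx => hx.2⟩
    rw [hS, Finset.sum_congr rfl this, Finset.sum_comm]
    refine Finset.sum_congr rfl fun x _ => ?_
    rw [← Finset.sum_filter, Finset.sum_const, nsmul_eq_mul, mul_one]
  have h2 : ∑ x ∈ V, ((I.filter fun i => x ∈ A i).card : ℝ) ^ 2 = ∑ i ∈ I, ∑ j ∈ I, (((A i) ∩ (A j)).card : ℝ) := by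
    have e1 : ∀ x, ((I.filter fun i => x ∈ A i).card : ℝ) ^ 2 =
        ∑ i ∈ I, ∑ j ∈ I, if x ∈ A i ∧ x ∈ A j then (1 : ℝ) else 0 := by
      intro x
      have : ((I.filter fun i => x ∈ A i).card : ℝ) = ∑ i ∈ I, if x ∈ A i then (1 : ℝ) else 0 := by
        rw [← Finset.sum_filter, Finset.sum_const, nsmul_eq_mul, mul_one]
      rw [this, sq, Finset.sum_mul_sum]
      refine Finset.sum_congr rfl fun i _ => Finset.sum_congr rfl fun j _ => ?_
      by_cases a : x ∈ A i <;> by_cases b : x ∈ A j <;> simp [a, b]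
    simp only [e1]
    rw [Finset.sum_comm]
    refine Finset.sum_congr rfl fun i hi' => ?_
    rw [Finset.sum_comm]
    refine Finset.sum_congr rfl fun j _ => ?_
    rw [← Finset.sum_filter, Finset.sum_const, nsmul_eq_mul, mul_one]
    congr 2
    ext x
    simp only [Finset.mem_filter, Finset.mem_inter]
    exact ⟨fun hx => hx.2, fun hx => ⟨hA i hi' hx.1, hx⟩⟩
  have h3 : S ^ 2 ≤ V.card * ∑ i ∈ I, ∑ j ∈ I, (((A i) ∩ (A j)).card : ℝ) := by
    rw [← h2, h1]
    exact sq_sum_le_card_mul_sum_sq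
  have h4 : ∑ i ∈ I, ∑ j ∈ I, (((A i) ∩ (A j)).card : ℝ) ≤ S + (I.card : ℝ) ^ 2 * r := by
    have e1 : ∀ i ∈ I, ∑ j ∈ I, (((A i) ∩ (A j)).card : ℝ) ≤ ((A i).card : ℝ) + (I.card : ℝ) * r := by
      intro i hi'
      rw [← Finset.add_sum_erase _ _ hi', Finset.inter_self]
      have : ∑ j ∈ I.erase i, (((A i) ∩ (A j)).card : ℝ) ≤ ∑ j ∈ I.erase i, r :=
        Finset.sum_le_sum fun j hj => hi i hi' j (Finset.mem_of_mem_erase hj) (Finset.ne_of_mem_erase hj).symm
      rw [Finset.sum_const, nsmul_eq_mul] at this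
      have h5 : ((I.erase i).card : ℝ) ≤ I.card := by exact_mod_cast Finset.card_erase_le
      nlinarith [mul_le_mul_of_nonneg_right h5 hr]
    refine (Finset.sum_le_sum e1).trans ?_
    rw [Finset.sum_add_distrib, Finset.sum_const, nsmul_eq_mul, hS]
    nlinarith
  have hS0 : 0 ≤ S := by rw [hS]; exact Finset.sum_nonneg fun _ _ => by positivity
  by_cases hS1 : S = 0
  · rw [hS1] at hkS
    have : (0 : ℝ) ≤ 2 * V.card := by positivity
    linarith
  have hSp : 0 < S := lt_of_le_of_ne hS0 (Ne.symm hS1)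
  -- `k² r ≤ r S² / h²`
  have h5 : (I.card : ℝ) ^ 2 * r * h ^ 2 ≤ S ^ 2 * r := by
    have : ((I.card : ℝ) * h) ^ 2 ≤ S ^ 2 := by
      have : (0 : ℝ) ≤ I.card * h := by positivity
      gcongr
    nlinarith [mul_le_mul_of_nonneg_right this hr]
  have hV : (0 : ℝ) ≤ V.card := by positivity
  have h6 : S ^ 2 * h ^ 2 ≤ V.card * S * h ^ 2 + V.card * (S ^ 2 * r) := by
    have a1 := h3.trans (mul_le_mul_of_nonneg_left h4 hV)
    have a2 := mul_le_mul_of_nonneg_right a1 (sq_nonneg h)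
    have a3 := mul_le_mul_of_nonneg_left h5 hV
    nlinarith
  have h7 : S ^ 2 * h ^ 2 ≤ V.card * S * h ^ 2 + S ^ 2 * h ^ 2 / 2 := by
    have a1 := mul_le_mul_of_nonneg_right hb (sq_nonneg S)
    nlinarith
  have h8 : S * (S * h ^ 2) ≤ S * (2 * V.card * h ^ 2) := by nlinarith
  have h9 := le_of_mul_le_mul_left h8 hSp
  have h10 := le_of_mul_le_mul_right h9 (by positivity : (0 : ℝ) < h ^ 2)
  linarith

end Vale.Agent.P054.Y.G
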