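import Mathlib

/-!
P054, block (G), leaves (4) and (7): the lines of a quadric `det ((1 - A) + [w](1 + A)) = 0`.
-/

set_option autoImplicit false

namespace Vale.Agent.P054.Y.G

open Matrix

/-- matrix of the cross product with `w` -/
def cr (w : Fin 3 → ℝ) : Matrix (Fin 3) (Fin 3) ℝ :=
  !![0, -w 2, w 1; w 2, 0, -w 0; -w 1, w 0, 0]

theorem cr_mulVec (w v : Fin 3 → ℝ) : (cr w).mulVec v = crossProduct w v := by
  ext i
  fin_cases i <;> simp [cr, Matrix.mulVec, dotProduct, Fin.sum_univ_three, cross_apply] <;> ring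

theorem eq3 {u v : Fin 3 → ℝ} (h0 : u 0 = v 0) (h1 : u 1 = v 1) (h2 : u 2 = v 2) : u = v := by
  ext i
  fin_cases i
  · exact h0
  · exact h1
  · exact h2

/-- the rotation of `w` preserves the inner product -/
theorem cayley_dot (w p p' q q' : Fin 3 → ℝ) (hp : p' - p = crossProduct w (p + p'))
    (hq : q' - q = crossProduct w (q + q')) : p ⬝ᵥ q = p' ⬝ᵥ q' := by
  have p0 := congrFun hp 0
  have p1 := congrFun hp 1
  have p2 := congrFun hp 2
  have q0 := congrFun hq 0
  have q1 := congrFun hq 1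
  have q2 := congrFun hq 2
  simp only [cross_apply, Pi.sub_apply, Pi.add_apply, Matrix.cons_val_zero, Matrix.cons_val_one,
    Matrix.cons_val] at p0 p1 p2 q0 q1 q2
  simp only [dotProduct, Fin.sum_univ_three]
  linear_combination (-1/2) * (q 0 + q' 0) * p0 + (-1/2) * (q 1 + q' 1) * p1 +
    (-1/2) * (q 2 + q' 2) * p2 + (-1/2) * (p 0 + p' 0) * q0 + (-1/2) * (p 1 + p' 1) * q1 +
    (-1/2) * (p 2 + p' 2) * q2

/-- parallel vectors -/
theorem exists_smul_of_cross {u v : Fin 3 → ℝ} (hu : u ≠ 0) (h : crossProduct u v = 0) :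
    ∃ c : ℝ, v = c • u := by
  have h0 := congrFun h 0
  have h1 := congrFun h 1
  have h2 := congrFun h 2
  simp only [cross_apply, Pi.zero_apply, Matrix.cons_val_zero, Matrix.cons_val_one,
    Matrix.cons_val] at h0 h1 h2
  have hne : u 0 ≠ 0 ∨ u 1 ≠ 0 ∨ u 2 ≠ 0 := by
    by_contra hcon
    push Not at hcon
    exact hu (eq3 hcon.1 hcon.2.1 hcon.2.2)
  rcases hne with h | h | h
  · refine ⟨v 0 / u 0, eq3 ?_ ?_ ?_⟩ <;> simp only [Pi.smul_apply, smul_eq_mul] <;> field_simp <;>
      linarith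
  · refine ⟨v 1 / u 1, eq3 ?_ ?_ ?_⟩ <;> simp only [Pi.smul_apply, smul_eq_mul] <;> field_simp <;>
      linarith
  · refine ⟨v 2 / u 2, eq3 ?_ ?_ ?_⟩ <;> simp only [Pi.smul_apply, smul_eq_mul] <;> field_simp <;>
      linarith

/-- a vector orthogonal to two independent vectors is a multiple of the cross product -/
theorem orth_two {u v z : Fin 3 → ℝ} (huv : crossProduct u v ≠ 0) (h1 : z ⬝ᵥ u = 0)
    (h2 : z ⬝ᵥ v = 0) : ∃ c : ℝ, z = c • crossProduct u v := by
  apply exists_smul_of_cross huv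
  simp only [dotProduct, Fin.sum_univ_three] at h1 h2
  apply eq3 <;>
  simp only [cross_apply, Pi.zero_apply, Matrix.cons_val_zero, Matrix.cons_val_one,
    Matrix.cons_val]
  · linear_combination v 0 * h1 - u 0 * h2
  · linear_combination v 1 * h1 - u 1 * h2
  · linear_combination v 2 * h1 - u 2 * h2

/-- in a plane, two independent isotropic vectors of a nondegenerate form are not orthogonal -/
theorem iso_pair {Q : Matrix (Fin 3) (Fin 3) ℝ} (hQ : Q.det ≠ 0) (hs : Qᵀ = Q)
    {u v : Fin 3 → ℝ} (huv : crossProduct u v ≠ 0) (h1 : Q.mulVec u ⬝ᵥ u = 0)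
    (h2 : Q.mulVec v ⬝ᵥ v = 0) : Q.mulVec u ⬝ᵥ v ≠ 0 := by
  intro h3
  have h4 : Q.mulVec v ⬝ᵥ u = 0 := by
    rw [dotProduct_comm, dotProduct_mulVec, ← mulVec_transpose, hs]
    exact h3
  obtain ⟨c, hc⟩ := orth_two huv h1 h3
  obtain ⟨d, hd⟩ := orth_two huv h4 h2
  have h5 : Q.mulVec (d • u - c • v) = 0 := by
    rw [mulVec_sub, mulVec_smul, mulVec_smul, hc, hd, smul_smul, smul_smul, mul_comm d c,
      sub_self]
  have h6 : d • u - c • v = 0 := by
    by_contra hne
    exact hQ (Matrix.exists_mulVec_eq_zero_iff.1 ⟨_, hne, h5⟩)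
  have h7 : c = 0 := by
    by_contra hc0
    apply huv
    have h8 : v = (d / c) • u := by
      have : c • v = d • u := (sub_eq_zero.1 h6).symm
      rw [div_eq_inv_mul, mul_smul, ← this, smul_smul, inv_mul_cancel₀ hc0, one_smul]
    rw [h8, map_smul, cross_self, smul_zero]
  have hu : u ≠ 0 := by
    intro h
    apply huv
    rw [h, map_zero, LinearMap.zero_apply]
  rw [h7, zero_smul] at hc
  exact hQ (Matrix.exists_mulVec_eq_zero_iff.1 ⟨u, hu, hc⟩)

/-- among three isotropic vectors of a plane, two are parallel -/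
theorem iso_three {Q : Matrix (Fin 3) (Fin 3) ℝ} (hQ : Q.det ≠ 0) (hs : Qᵀ = Q)
    {n u v z : Fin 3 → ℝ} (hn : n ≠ 0) (hu : n ⬝ᵥ u = 0) (hv : n ⬝ᵥ v = 0) (hz : n ⬝ᵥ z = 0)
    (h1 : Q.mulVec u ⬝ᵥ u = 0) (h2 : Q.mulVec v ⬝ᵥ v = 0) (h3 : Q.mulVec z ⬝ᵥ z = 0) :
    crossProduct u v = 0 ∨ crossProduct u z = 0 ∨ crossProduct v z = 0 := by
  by_contra hcon
  push Not at hcon
  obtain ⟨huv, huz, hvz⟩ := hcon
  have k12 := iso_pair hQ hs huv h1 h2
  have k13 := iso_pair hQ hs huz h1 h3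
  have k23 := iso_pair hQ hs hvz h2 h3
  -- `z = α u + β v`
  obtain ⟨c, hc⟩ := orth_two huv hu hv
  have hc0 : c ≠ 0 := by
    rintro rfl
    apply hn
    rw [hc, zero_smul]
  have hz' : crossProduct u v ⬝ᵥ z = 0 := by
    rw [hc, smul_dotProduct, smul_eq_mul] at hz
    exact (mul_eq_zero.1 hz).resolve_left hc0
  -- `(u × v) × z = 0`-type identity: `z × (u × v) = u (z.v) - v (z.u)`
  have hN : crossProduct u v ⬝ᵥ crossProduct u v ≠ 0 := by
    intro h
    exact huv (dotProduct_self_eq_zero.1 h)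
  have hdec : (crossProduct u v ⬝ᵥ crossProduct u v) • z =
      (crossProduct z v ⬝ᵥ crossProduct u v) • u + (crossProduct u z ⬝ᵥ crossProduct u v) • v := by
    simp only [dotProduct, Fin.sum_univ_three, cross_apply, Matrix.cons_val_zero,
      Matrix.cons_val_one, Matrix.cons_val] at hz' ⊢
    apply eq3 <;>
    simp only [Pi.smul_apply, Pi.add_apply, smul_eq_mul]
    · linear_combination (u 1 * v 2 - u 2 * v 1) * hz'
    · linear_combination (u 2 * v 0 - u 0 * v 2) * hz'
    · linear_combination (u 0 * v 1 - u 1 * v 0) * hz'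
  set N := crossProduct u v ⬝ᵥ crossProduct u v with hNdef
  set α := crossProduct z v ⬝ᵥ crossProduct u v with hα
  set β := crossProduct u z ⬝ᵥ crossProduct u v with hβ
  have hsym : Q.mulVec v ⬝ᵥ u = Q.mulVec u ⬝ᵥ v := by
    rw [dotProduct_comm, dotProduct_mulVec, ← mulVec_transpose, hs]
  have h5 : Q.mulVec (N • z) ⬝ᵥ (N • z) = 0 := by
    rw [mulVec_smul, smul_dotProduct, dotProduct_smul, h3, smul_zero, smul_zero]
  rw [hdec, mulVec_add, mulVec_smul, mulVec_smul] at h5
  simp only [add_dotProduct, dotProduct_add, smul_dotProduct, dotProduct_smul, smul_eq_mul, h1, h2,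
    hsym] at h5
  have h6 : α * β = 0 := by
    have : (α * β) * (2 * (Q.mulVec u ⬝ᵥ v)) = 0 := by linarith
    rcases mul_eq_zero.1 this with h | h
    · exact h
    · exact absurd (by linarith : Q.mulVec u ⬝ᵥ v = 0) k12
  rcases mul_eq_zero.1 h6 with h | h
  · -- `z` parallel to `v`
    apply hvz
    have h7 : N • z = β • v := by rw [hdec, h, zero_smul, zero_add]
    have h8 : N • crossProduct v z = 0 := by
      rw [← map_smul, h7, map_smul, cross_self, smul_zero]
    exact (smul_eq_zero.1 h8).resolve_left hN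
  · apply huz
    have h7 : N • z = α • u := by rw [hdec, h, zero_smul, add_zero]
    have h8 : N • crossProduct u z = 0 := by
      rw [← map_smul, h7, map_smul, cross_self, smul_zero]
    exact (smul_eq_zero.1 h8).resolve_left hN

/-- a point of the line of `(x, y)` -/
theorem line_point {x y : Fin 3 → ℝ} (hxy : x ⬝ᵥ x = y ⬝ᵥ y) (hs : x + y ≠ 0) (s : ℝ) :
    y - x = crossProduct ((((x + y) ⬝ᵥ (x + y))⁻¹) • crossProduct (x + y) (y - x) +
      s • (x + y)) (x + y) := by
  have hN : (x + y) ⬝ᵥ (x + y) ≠ 0 := by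
    intro h
    exact hs (dotProduct_self_eq_zero.1 h)
  have h1 : (x + y) ⬝ᵥ (y - x) = 0 := by
    simp only [dotProduct, Fin.sum_univ_three, Pi.add_apply, Pi.sub_apply] at hxy ⊢
    linarith
  have h2 : crossProduct (crossProduct (x + y) (y - x)) (x + y) =
      ((x + y) ⬝ᵥ (x + y)) • (y - x) := by
    generalize x + y = u at h1 ⊢
    generalize y - x = v at h1 ⊢
    simp only [dotProduct, Fin.sum_univ_three] at h1 ⊢
    apply eq3 <;>
    simp only [cross_apply, Matrix.cons_val_zero, Matrix.cons_val_one,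
      Matrix.cons_val, Pi.smul_apply, smul_eq_mul]
    · linear_combination (-u 0) * h1
    · linear_combination (-u 1) * h1
    · linear_combination (-u 2) * h1
  generalize x + y = u at h1 h2 hN ⊢
  rw [map_add, LinearMap.add_apply, map_smul, LinearMap.smul_apply, map_smul,
    LinearMap.smul_apply, cross_self, smul_zero, add_zero, h2, smul_smul, inv_mul_cancel₀ hN,
    one_smul]

/-- **leaf (4)**: the lines in the quadric `det ((1 - A) + [w](1 + A)) = 0` -/
theorem class_line (A : Matrix (Fin 3) (Fin 3) ℝ) (hA : (1 - Aᵀ * A).det ≠ 0)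
    (x y : Fin 3 → ℝ) (hxy : x ⬝ᵥ x = y ⬝ᵥ y) (hs : x + y ≠ 0)
    (h : ∀ w : Fin 3 → ℝ, y - x = crossProduct w (x + y) →
      ((1 - A) + cr w * (1 + A)).det = 0) :
    A.mulVec x = y ∨ Aᵀ.mulVec y = x := by
  by_contra hcon
  push Not at hcon
  obtain ⟨hAx, hAy⟩ := hcon
  set w : ℝ → Fin 3 → ℝ := fun s => (((x + y) ⬝ᵥ (x + y))⁻¹) • crossProduct (x + y) (y - x) +
      s • (x + y) with hw
  have hwline : ∀ s, y - x = crossProduct (w s) (x + y) := fun s => line_point hxy hs s
  have hker : ∀ s, ∃ v : Fin 3 → ℝ, v ≠ 0 ∧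
      A.mulVec v - v = crossProduct (w s) (v + A.mulVec v) := by
    intro s
    obtain ⟨v, hv, hv0⟩ := Matrix.exists_mulVec_eq_zero_iff.2 (h (w s) (hwline s))
    refine ⟨v, hv, ?_⟩
    rw [add_mulVec, sub_mulVec, one_mulVec, ← mulVec_mulVec, add_mulVec, one_mulVec,
      cr_mulVec] at hv0
    have : crossProduct (w s) (v + A.mulVec v) = A.mulVec v - v := by
      have h2 : v - A.mulVec v + crossProduct (w s) (v + A.mulVec v) = 0 := hv0
      rw [← sub_eq_zero]
      rw [← h2]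
      abel
    exact this.symm
  choose v hv0 hv using hker
  -- isotropy
  have hiso : ∀ s, (1 - Aᵀ * A).mulVec (v s) ⬝ᵥ (v s) = 0 := by
    intro s
    have h1 := cayley_dot (w s) (v s) (A.mulVec (v s)) (v s) (A.mulVec (v s)) (hv s) (hv s)
    rw [sub_mulVec, one_mulVec, sub_dotProduct, ← mulVec_mulVec, h1]
    rw [mulVec_transpose, ← dotProduct_mulVec]
    ring
  have hpl : ∀ s, (x - Aᵀ.mulVec y) ⬝ᵥ (v s) = 0 := by
    intro s
    have h1 := cayley_dot (w s) x y (v s) (A.mulVec (v s)) (hwline s) (hv s)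
    rw [sub_dotProduct, h1, mulVec_transpose, ← dotProduct_mulVec]
    ring
  have hn : x - Aᵀ.mulVec y ≠ 0 := by
    intro h0
    exact hAy (sub_eq_zero.1 h0).symm
  have hsymm : (1 - Aᵀ * A)ᵀ = 1 - Aᵀ * A := by
    rw [transpose_sub, transpose_one, transpose_mul, transpose_transpose]
  -- two parameters with parallel kernel vectors
  have hfin : ∀ s s' : ℝ, s ≠ s' → crossProduct (v s) (v s') = 0 → False := by
    intro s s' hss hc
    obtain ⟨c, hc⟩ := exists_smul_of_cross (hv0 s) hc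
    have hc0 : c ≠ 0 := by
      rintro rfl
      exact hv0 s' (by rw [hc, zero_smul])
    have e1 := hv s
    have e2 := hv s'
    rw [hc, mulVec_smul, ← smul_sub, ← smul_add, map_smul] at e2
    have e3 : A.mulVec (v s) - v s = crossProduct (w s') (v s + A.mulVec (v s)) :=
      smul_right_injective _ hc0 e2
    have e4 : crossProduct (x + y) (v s + A.mulVec (v s)) = 0 := by
      have e5 : crossProduct (w s - w s') (v s + A.mulVec (v s)) = 0 := by
        rw [map_sub, LinearMap.sub_apply, ← e1, ← e3, sub_self]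
      have e6 : w s - w s' = (s - s') • (x + y) := by
        simp only [hw]
        rw [sub_smul]
        abel
      rw [e6, map_smul, LinearMap.smul_apply] at e5
      exact (smul_eq_zero.1 e5).resolve_left (sub_ne_zero.2 hss)
    obtain ⟨m, hm⟩ := exists_smul_of_cross hs e4
    have e7 : A.mulVec (v s) - v s = m • (y - x) := by
      rw [e1, hm, map_smul, ← hwline s]
    have e8 : v s = m • x := by
      have : (2 : ℝ) • v s = (2 : ℝ) • (m • x) := by
        have h1 : (2 : ℝ) • v s = (v s + A.mulVec (v s)) - (A.mulVec (v s) - v s) := by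
          rw [two_smul]
          abel
        rw [h1, hm, e7, smul_add, smul_sub, two_smul]
        abel
      exact smul_right_injective _ (two_ne_zero) this
    have e9 : A.mulVec (v s) = m • y := by
      have h1 : A.mulVec (v s) = (A.mulVec (v s) - v s) + v s := by abel
      rw [h1, e7, e8, smul_sub]
      abel
    have hm0 : m ≠ 0 := by
      rintro rfl
      exact hv0 s (by rw [e8, zero_smul])
    rw [e8, mulVec_smul] at e9
    exact hAx (smul_right_injective _ hm0 e9)
  rcases iso_three hA hsymm hn (hpl 0) (hpl 1) (hpl 2) (hiso 0) (hiso 1) (hiso 2) with h | h | h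
  · exact hfin 0 1 (by norm_num) h
  · exact hfin 0 2 (by norm_num) h
  · exact hfin 1 2 (by norm_num) h

/-- determinant of a symmetric matrix with zero diagonal -/
theorem det_zero_diag (M : Matrix (Fin 3) (Fin 3) ℝ) (hd : ∀ i, M i i = 0)
    (hs : ∀ i j, M i j = M j i) : M.det = 2 * M 0 1 * M 0 2 * M 1 2 := by
  rw [Matrix.det_fin_three, hd 0, hd 1, hd 2, hs 1 0, hs 2 0, hs 2 1]
  ring

/-- **leaf (7)**: three pairwise skew lines with independent ends -/
theorem good_triple (x y : Fin 3 → (Fin 3 → ℝ)) (hx : LinearIndependent ℝ x)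
    (hy : LinearIndependent ℝ y) (hn : ∀ i, x i ⬝ᵥ x i = y i ⬝ᵥ y i)
    (hc : ∀ i j, i ≠ j → x i ⬝ᵥ x j ≠ y i ⬝ᵥ y j) :
    ∃ A : Matrix (Fin 3) (Fin 3) ℝ, (∀ i, A.mulVec (x i) = y i) ∧ (1 - Aᵀ * A).det ≠ 0 ∧
      A.det ≠ 0 ∧ ∀ u v : Fin 3 → ℝ, (∀ i, u ⬝ᵥ x i = v ⬝ᵥ y i) → Aᵀ.mulVec v = u := by
  set X : Matrix (Fin 3) (Fin 3) ℝ := Matrix.of x with hX
  set Y : Matrix (Fin 3) (Fin 3) ℝ := Matrix.of y with hY
  have hXu : IsUnit X := Matrix.linearIndependent_rows_iff_isUnit.1 hx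
  have hYu : IsUnit Y := Matrix.linearIndependent_rows_iff_isUnit.1 hy
  have hXd : X.det ≠ 0 := ((Matrix.isUnit_iff_isUnit_det _).1 hXu).ne_zero
  have hYd : Y.det ≠ 0 := ((Matrix.isUnit_iff_isUnit_det _).1 hYu).ne_zero
  have hXi : X * X⁻¹ = 1 := Matrix.mul_nonsing_inv _ (Ne.isUnit hXd)
  have hXi' : X⁻¹ * X = 1 := Matrix.nonsing_inv_mul _ (Ne.isUnit hXd)
  obtain ⟨B, hXB⟩ : ∃ B : Matrix (Fin 3) (Fin 3) ℝ, X * B = Y :=
    ⟨X⁻¹ * Y, by rw [← Matrix.mul_assoc, hXi, Matrix.one_mul]⟩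
  refine ⟨Bᵀ, ?_, ?_, ?_, ?_⟩
  · intro i
    have h1 : (X * B) i = Y i := by rw [hXB]
    have h2 : (x i) ᵥ* B = (X * B) i := rfl
    rw [mulVec_transpose, h2, h1]
    rfl
  · -- `X (1 - B Bᵀ) Xᵀ = X Xᵀ - Y Yᵀ`
    rw [transpose_transpose]
    have h1 : X * (1 - B * Bᵀ) * Xᵀ = X * Xᵀ - Y * Yᵀ := by
      rw [← hXB, transpose_mul, Matrix.mul_sub, Matrix.mul_one, Matrix.sub_mul]
      simp only [Matrix.mul_assoc]
    have h2 : (X * Xᵀ - Y * Yᵀ).det ≠ 0 := by
      have hij : ∀ i j, (X * Xᵀ - Y * Yᵀ) i j = x i ⬝ᵥ x j - y i ⬝ᵥ y j := by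
        intro i j
        rfl
      rw [det_zero_diag]
      · rw [hij, hij, hij]
        have c01 := sub_ne_zero.2 (hc 0 1 (by decide))
        have c02 := sub_ne_zero.2 (hc 0 2 (by decide))
        have c12 := sub_ne_zero.2 (hc 1 2 (by decide))
        exact mul_ne_zero (mul_ne_zero (mul_ne_zero two_ne_zero c01) c02) c12
      · intro i
        rw [hij, hn i, sub_self]
      · intro i j
        rw [hij, hij, dotProduct_comm (x i), dotProduct_comm (y i)]
    intro h0
    apply h2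
    rw [← h1, det_mul, det_mul, h0]
    ring
  · rw [det_transpose]
    intro h0
    apply hYd
    rw [← hXB, det_mul, h0, mul_zero]
  · intro u v huv
    rw [transpose_transpose]
    have h1 : X.mulVec u = Y.mulVec v := by
      ext i
      have := huv i
      rw [dotProduct_comm u, dotProduct_comm v] at this
      exact this
    have h2 : X⁻¹.mulVec (X.mulVec u) = X⁻¹.mulVec (Y.mulVec v) := by rw [h1]
    rw [← hXB, mulVec_mulVec, hXi', one_mulVec, mulVec_mulVec, ← Matrix.mul_assoc, hXi',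
      Matrix.one_mul] at h2
    exact h2.symm

end Vale.Agent.P054.Y.G
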