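import Mathlib

/-! P054, block G, leaf (14): Cauchy-Schwarz with labels (ordering trick). -/

set_option linter.all false
set_option autoImplicit false

namespace Vale.Agent.P054.Y.G

open Finset

section General

variable {σ β : Type*} [DecidableEq σ] [DecidableEq β]

/-- pairs of elements of `S` with the same value of `f` -/
def coll (S : Finset σ) (f : σ → β) : Finset (σ × σ) :=
  (S ×ˢ S).filter (fun p => f p.1 = f p.2)

/-- size of a fibre -/
def fib (S : Finset σ) (f : σ → β) (v : β) : ℕ := (S.filter (fun s => f s = v)).card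

theorem coll_card (S : Finset σ) (f : σ → β) (V : Finset β) (hV : ∀ s ∈ S, f s ∈ V) :
    (coll S f).card = ∑ v ∈ V, fib S f v ^ 2 := by
  have h1 : (coll S f).card = ∑ v ∈ V, ((coll S f).filter (fun p => f p.1 = v)).card := by
    apply Finset.card_eq_sum_card_fiberwise
    intro p hp
    rw [coll, Finset.coe_filter] at hp
    exact hV _ (Finset.mem_product.1 hp.1).1
  rw [h1]
  refine Finset.sum_congr rfl (fun v _ => ?_)
  have : (coll S f).filter (fun p => f p.1 = v) =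
      (S.filter (fun s => f s = v)) ×ˢ (S.filter (fun s => f s = v)) := by
    ext p
    simp only [coll, Finset.mem_filter, Finset.mem_product]
    constructor
    · rintro ⟨⟨⟨h1, h2⟩, h3⟩, h4⟩
      exact ⟨⟨h1, h4⟩, h2, h3 ▸ h4⟩
    · rintro ⟨⟨h1, h2⟩, h3, h4⟩
      exact ⟨⟨⟨h1, h3⟩, h2.trans h4.symm⟩, h2⟩
  rw [this, Finset.card_product, fib, sq]

/-- Cauchy-Schwarz: refining the collision relation by a map with few values -/
theorem coll_refine {γ : Type*} [DecidableEq γ] (S : Finset σ) (f : σ → β) (g : σ → γ)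
    (T : Finset γ) (hT : ∀ s ∈ S, g s ∈ T) :
    (coll S f).card ≤ T.card * (coll S (fun s => (f s, g s))).card := by
  classical
  set V := S.image f with hVdef
  have hV : ∀ s ∈ S, f s ∈ V := fun s hs => Finset.mem_image_of_mem f hs
  rw [coll_card S f V hV, coll_card S (fun s => (f s, g s)) (V ×ˢ T)
    (fun s hs => Finset.mem_product.2 ⟨hV s hs, hT s hs⟩), Finset.sum_product, Finset.mul_sum]
  refine Finset.sum_le_sum (fun v _ => ?_)
  have h2 : fib S f v = ∑ w ∈ T, fib S (fun s => (f s, g s)) (v, w) := by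
    have : (S.filter (fun s => f s = v)).card =
        ∑ w ∈ T, ((S.filter (fun s => f s = v)).filter (fun s => g s = w)).card := by
      apply Finset.card_eq_sum_card_fiberwise
      intro s hs
      rw [Finset.coe_filter] at hs
      exact hT s hs.1
    rw [fib, this]
    refine Finset.sum_congr rfl (fun w _ => ?_)
    rw [fib, Finset.filter_filter]
    congr 1
    ext s
    simp [Prod.ext_iff]
  rw [h2]
  have := sq_sum_le_card_mul_sum_sq (s := T) (f := fun w => fib S (fun s => (f s, g s)) (v, w))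
  exact this

end General

section Labels

variable {α L : Type*} [DecidableEq α] [LinearOrder L]

/-- triples `(a, (b, b'))` -/
def trip (P : Finset α) (E : α → Finset α) : Finset (α × α × α) :=
  (P ×ˢ (P.biUnion E ×ˢ P.biUnion E)).filter (fun t => t.2.1 ∈ E t.1 ∧ t.2.2 ∈ E t.1)

theorem mem_trip {P : Finset α} {E : α → Finset α} {a b c : α} :
    (a, b, c) ∈ trip P E ↔ a ∈ P ∧ b ∈ E a ∧ c ∈ E a := by
  simp only [trip, Finset.mem_filter, Finset.mem_product, Finset.mem_biUnion]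
  constructor
  · rintro ⟨⟨h1, _⟩, h2, h3⟩
    exact ⟨h1, h2, h3⟩
  · rintro ⟨h1, h2, h3⟩
    exact ⟨⟨h1, ⟨a, h1, h2⟩, ⟨a, h1, h3⟩⟩, h2, h3⟩

/-- matched pairs of neighbours -/
noncomputable def MM (D : α → α → ℝ) (E : α → Finset α) (a c : α) : ℕ :=
  ((E a ×ˢ E c).filter (fun q => D a q.1 = D c q.2)).card

/-- the counted pairs of triples -/
noncomputable def six (P : Finset α) (D : α → α → ℝ) (E : α → Finset α) (kap : α → α → L) :
    Finset ((α × α × α) × (α × α × α)) :=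
  (trip P E ×ˢ trip P E).filter (fun p =>
    D p.1.1 p.1.2.1 = D p.2.1 p.2.2.1 ∧ D p.1.1 p.1.2.2 = D p.2.1 p.2.2.2 ∧
    D p.1.2.1 p.1.2.2 = D p.2.2.1 p.2.2.2 ∧
    kap p.1.1 p.1.2.1 ≤ kap p.1.1 p.1.2.2 ∧ kap p.2.1 p.2.2.1 ≤ kap p.2.1 p.2.2.2)

theorem sum_MM_sq (P : Finset α) (D : α → α → ℝ) (E : α → Finset α) :
    ∑ a ∈ P, ∑ c ∈ P, MM D E a c ^ 2 =
      (coll (trip P E) (fun t => (D t.1 t.2.1, D t.1 t.2.2))).card := by
  classical
  -- a bijection: ((b,d),(b',d')) over (a,c) with ((a,b,b'),(c,d,d'))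
  have h : ∀ a c, MM D E a c ^ 2 =
      ((((E a ×ˢ E c).filter (fun q => D a q.1 = D c q.2)) ×ˢ
        ((E a ×ˢ E c).filter (fun q => D a q.1 = D c q.2)))).card := by
    intro a c
    rw [Finset.card_product, MM, sq]
  simp only [h]
  rw [← Finset.sum_product', ← Finset.card_sigma]
  refine Finset.card_bij'
    (fun x _ => ((x.1.1, x.2.1.1, x.2.2.1), (x.1.2, x.2.1.2, x.2.2.2)))
    (fun y _ => ⟨(y.1.1, y.2.1), ((y.1.2.1, y.2.2.1), (y.1.2.2, y.2.2.2))⟩) ?_ ?_ ?_ ?_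
  · rintro ⟨⟨a, c⟩, ⟨b, d⟩, ⟨b', d'⟩⟩ hx
    simp only [Finset.mem_sigma, Finset.mem_product, Finset.mem_filter] at hx
    simp only [coll, Finset.mem_filter, Finset.mem_product, mem_trip, Prod.mk.injEq]
    exact ⟨⟨⟨hx.1.1, hx.2.1.1.1, hx.2.2.1.1⟩, ⟨hx.1.2, hx.2.1.1.2, hx.2.2.1.2⟩⟩,
      hx.2.1.2, hx.2.2.2⟩
  · rintro ⟨⟨a, b, b'⟩, ⟨c, d, d'⟩⟩ hy
    simp only [coll, Finset.mem_filter, Finset.mem_product, mem_trip, Prod.mk.injEq] at hy
    simp only [Finset.mem_sigma, Finset.mem_product, Finset.mem_filter]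
    exact ⟨⟨hy.1.1.1, hy.1.2.1⟩, ⟨⟨hy.1.1.2.1, hy.1.2.2.1⟩, hy.2.1⟩,
      ⟨⟨hy.1.1.2.2, hy.1.2.2.2⟩, hy.2.2⟩⟩
  · rintro ⟨⟨a, c⟩, ⟨b, d⟩, ⟨b', d'⟩⟩ _
    rfl
  · rintro ⟨⟨a, b, b'⟩, ⟨c, d, d'⟩⟩ _
    rfl

/-- **Cauchy-Schwarz with labels.** -/
theorem cs_labels (P : Finset α) (D : α → α → ℝ) (T : Finset ℝ) (E : α → Finset α)
    (kap : α → α → L) (hT : ∀ a ∈ P, ∀ b ∈ E a, ∀ c ∈ E a, D b c ∈ T) :
    ∑ a ∈ P, ∑ c ∈ P, MM D E a c ^ 2 ≤ 4 * (T.card * (six P D E kap).card) := by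
  classical
  rw [sum_MM_sq]
  set S := trip P E with hS
  set f : α × α × α → ℝ × ℝ := fun t => (D t.1 t.2.1, D t.1 t.2.2) with hf
  set S1 := S.filter (fun t => kap t.1 t.2.1 ≤ kap t.1 t.2.2) with hS1
  set V := (S.image f) ∪ (S.image f).image Prod.swap with hV
  have hVm : ∀ s ∈ S, f s ∈ V := fun s hs =>
    Finset.mem_union_left _ (Finset.mem_image_of_mem f hs)
  have hVswap : ∀ v ∈ V, v.swap ∈ V := by
    intro v hv
    rw [hV, Finset.mem_union] at hv ⊢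
    rcases hv with h | h
    · exact Or.inr (Finset.mem_image_of_mem _ h)
    · rw [Finset.mem_image] at h
      obtain ⟨w, hw, rfl⟩ := h
      rw [Prod.swap_swap]
      exact Or.inl hw
  have hle : ∀ v, fib S f v ≤ fib S1 f v + fib S1 f v.swap := by
    intro v
    have h1 : S.filter (fun s => f s = v) ⊆
        (S1.filter (fun s => f s = v)) ∪
        ((S1.filter (fun s => f s = v.swap)).image (fun t => (t.1, t.2.2, t.2.1))) := by
      rintro ⟨a, b, c⟩ ht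
      rw [Finset.mem_filter] at ht
      rw [Finset.mem_union]
      rcases le_total (kap a b) (kap a c) with h | h
      · exact Or.inl (Finset.mem_filter.2 ⟨Finset.mem_filter.2 ⟨ht.1, h⟩, ht.2⟩)
      · refine Or.inr (Finset.mem_image.2 ⟨(a, c, b), ?_, rfl⟩)
        rw [Finset.mem_filter, hS1, Finset.mem_filter]
        have hm := mem_trip.1 ht.1
        refine ⟨⟨mem_trip.2 ⟨hm.1, hm.2.2, hm.2.1⟩, h⟩, ?_⟩
        have h2 := ht.2
        simp only [hf] at h2 ⊢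
        rw [← h2]
        rfl
    calc fib S f v ≤ _ := Finset.card_le_card h1
      _ ≤ _ := Finset.card_union_le _ _
      _ ≤ _ := Nat.add_le_add_left Finset.card_image_le _
  have hsq : ∑ v ∈ V, fib S f v ^ 2 ≤ 4 * ∑ v ∈ V, fib S1 f v ^ 2 := by
    have hsw : ∑ v ∈ V, fib S1 f v.swap ^ 2 = ∑ v ∈ V, fib S1 f v ^ 2 := by
      refine Finset.sum_bij' (fun v _ => v.swap) (fun v _ => v.swap) (fun v hv => hVswap v hv)
        (fun v hv => hVswap v hv) (fun v _ => Prod.swap_swap v) (fun v _ => Prod.swap_swap v)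
        (fun v _ => rfl)
    calc ∑ v ∈ V, fib S f v ^ 2 ≤ ∑ v ∈ V, (2 * fib S1 f v ^ 2 + 2 * fib S1 f v.swap ^ 2) := by
          refine Finset.sum_le_sum (fun v _ => ?_)
          have h := hle v
          have h2 : fib S f v ^ 2 ≤ (fib S1 f v + fib S1 f v.swap) ^ 2 := Nat.pow_le_pow_left h 2
          refine le_trans h2 ?_
          zify
          nlinarith [sq_nonneg ((fib S1 f v : ℤ) - (fib S1 f v.swap : ℤ))]
      _ = 4 * ∑ v ∈ V, fib S1 f v ^ 2 := by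
          rw [Finset.sum_add_distrib, ← Finset.mul_sum, ← Finset.mul_sum, hsw]
          ring
  rw [coll_card S f V hVm]
  refine le_trans hsq (Nat.mul_le_mul_left _ ?_)
  rw [← coll_card S1 f V (fun s hs => hVm s (Finset.mem_filter.1 hs).1)]
  refine le_trans (coll_refine S1 f (fun t => D t.2.1 t.2.2) T ?_) (Nat.mul_le_mul_left _ ?_)
  · rintro ⟨a, b, c⟩ hs
    have hm := mem_trip.1 (Finset.mem_filter.1 hs).1
    exact hT a hm.1 b hm.2.1 c hm.2.2
  · apply Finset.card_le_card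
    rintro ⟨⟨a, b, b'⟩, ⟨c, d, d'⟩⟩ hp
    simp only [coll, hS1, hf, Finset.mem_filter, Finset.mem_product, Prod.mk.injEq] at hp
    simp only [six, Finset.mem_filter, Finset.mem_product]
    exact ⟨⟨hp.1.1.1, hp.1.2.1⟩, hp.2.1.1, hp.2.1.2, hp.2.2, hp.1.1.2, hp.1.2.2⟩

/-- lower bound for `∑ M²` -/
theorem sum_MM_lower (P : Finset α) (D : α → α → ℝ) (T : Finset ℝ) (E : α → Finset α)
    (hT : ∀ a ∈ P, ∀ b ∈ E a, D a b ∈ T) :
    (∑ a ∈ P, (E a).card) ^ 2 ≤ T.card * ∑ a ∈ P, ∑ c ∈ P, MM D E a c := by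
  classical
  set S : Finset (α × α) := (P ×ˢ P.biUnion E).filter (fun t => t.2 ∈ E t.1) with hS
  have hmem : ∀ a b, (a, b) ∈ S ↔ a ∈ P ∧ b ∈ E a := by
    intro a b
    simp only [hS, Finset.mem_filter, Finset.mem_product, Finset.mem_biUnion]
    exact ⟨fun h => ⟨h.1.1, h.2⟩, fun h => ⟨⟨h.1, a, h.1, h.2⟩, h.2⟩⟩
  have h1 : S.card = ∑ a ∈ P, (E a).card := by
    rw [← Finset.card_sigma]
    refine Finset.card_bij' (fun x _ => ⟨x.1, x.2⟩) (fun y _ => (y.1, y.2)) ?_ ?_ ?_ ?_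
    · rintro ⟨a, b⟩ h
      rw [hmem] at h
      simpa using h
    · rintro ⟨a, b⟩ h
      rw [hmem]
      simpa using h
    · rintro ⟨a, b⟩ _; rfl
    · rintro ⟨a, b⟩ _; rfl
  have h2 : (coll S (fun t => (((), D t.1 t.2) : Unit × ℝ))).card =
      ∑ a ∈ P, ∑ c ∈ P, MM D E a c := by
    simp only [MM]
    rw [← Finset.sum_product', ← Finset.card_sigma]
    refine Finset.card_bij'
      (fun y _ => ⟨(y.1.1, y.2.1), (y.1.2, y.2.2)⟩)
      (fun x _ => ((x.1.1, x.2.1), (x.1.2, x.2.2))) ?_ ?_ ?_ ?_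
    · rintro ⟨⟨a, b⟩, ⟨c, d⟩⟩ hy
      simp only [coll, Finset.mem_filter, Finset.mem_product, hmem, Prod.mk.injEq,
        true_and] at hy
      simp only [Finset.mem_sigma, Finset.mem_product, Finset.mem_filter]
      exact ⟨⟨hy.1.1.1, hy.1.2.1⟩, ⟨hy.1.1.2, hy.1.2.2⟩, hy.2⟩
    · rintro ⟨⟨a, c⟩, ⟨b, d⟩⟩ hx
      simp only [Finset.mem_sigma, Finset.mem_product, Finset.mem_filter] at hx
      simp only [coll, Finset.mem_filter, Finset.mem_product, hmem, Prod.mk.injEq, true_and]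
      exact ⟨⟨⟨hx.1.1, hx.2.1.1⟩, ⟨hx.1.2, hx.2.1.2⟩⟩, hx.2.2⟩
    · rintro ⟨⟨a, b⟩, ⟨c, d⟩⟩ _; rfl
    · rintro ⟨⟨a, c⟩, ⟨b, d⟩⟩ _; rfl
  have h3 := coll_refine S (fun _ => ()) (fun t => D t.1 t.2) T (by
    rintro ⟨a, b⟩ h
    rw [hmem] at h
    exact hT a h.1 b h.2)
  rw [h2] at h3
  have h4 : (coll S (fun _ => ())).card = S.card ^ 2 := by
    rw [coll, Finset.filter_true_of_mem (by intros; rfl), Finset.card_product, sq]
  rw [h4, h1] at h3
  exact h3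

theorem sum_MM_le_sq (P : Finset α) (D : α → α → ℝ) (E : α → Finset α) :
    (∑ a ∈ P, ∑ c ∈ P, MM D E a c) ^ 2 ≤ P.card ^ 2 * ∑ a ∈ P, ∑ c ∈ P, MM D E a c ^ 2 := by
  rw [← Finset.sum_product', ← Finset.sum_product']
  have h := sq_sum_le_card_mul_sum_sq (s := P ×ˢ P) (f := fun q : α × α => MM D E q.1 q.2)
  rw [Finset.card_product, ← sq] at h
  exact h

/-- `(∑ #E a)^4 ≤ #T² #P² ∑ M²` -/
theorem sum_E_pow_four (P : Finset α) (D : α → α → ℝ) (T : Finset ℝ) (E : α → Finset α)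
    (hT : ∀ a ∈ P, ∀ b ∈ E a, D a b ∈ T) :
    (∑ a ∈ P, (E a).card) ^ 4 ≤
      T.card ^ 2 * (P.card ^ 2 * ∑ a ∈ P, ∑ c ∈ P, MM D E a c ^ 2) := by
  calc (∑ a ∈ P, (E a).card) ^ 4 = ((∑ a ∈ P, (E a).card) ^ 2) ^ 2 := by ring
    _ ≤ (T.card * ∑ a ∈ P, ∑ c ∈ P, MM D E a c) ^ 2 :=
        Nat.pow_le_pow_left (sum_MM_lower P D T E hT) 2
    _ = T.card ^ 2 * (∑ a ∈ P, ∑ c ∈ P, MM D E a c) ^ 2 := by ring
    _ ≤ _ := Nat.mul_le_mul_left _ (sum_MM_le_sq P D E)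

/-- `(∑ #E a)^4 ≤ 4 #T³ #P² #six` -/
theorem sum_E_six (P : Finset α) (D : α → α → ℝ) (T : Finset ℝ) (E : α → Finset α)
    (kap : α → α → L) (hE : ∀ a ∈ P, E a ⊆ P) (hT : ∀ a ∈ P, ∀ b ∈ P, D a b ∈ T) :
    (∑ a ∈ P, (E a).card) ^ 4 ≤ 4 * T.card ^ 3 * P.card ^ 2 * (six P D E kap).card := by
  refine le_trans (sum_E_pow_four P D T E (fun a ha b hb => hT a ha b (hE a ha hb))) ?_
  have h := cs_labels P D T E kap
    (fun a ha b hb c hc => hT b (hE a ha hb) c (hE a ha hc))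
  calc T.card ^ 2 * (P.card ^ 2 * ∑ a ∈ P, ∑ c ∈ P, MM D E a c ^ 2)
      ≤ T.card ^ 2 * (P.card ^ 2 * (4 * (T.card * (six P D E kap).card))) :=
        Nat.mul_le_mul_left _ (Nat.mul_le_mul_left _ h)
    _ = _ := by ring

end Labels

end Vale.Agent.P054.Y.G
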