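import Mathlib

/-! P054, block G, leaf (1): equal Gram data / equal distances give an orthogonal matrix. -/

set_option linter.all false

namespace Vale.Agent.P054.Y.G.Gram

open Matrix

/-- Two families with the same Gram matrix differ by an orthogonal matrix. -/
theorem exists_orth {ι : Type*} (x y : ι → (Fin 3 → ℝ)) (h : ∀ i j, x i ⬝ᵥ x j = y i ⬝ᵥ y j) :
    ∃ Q : Matrix (Fin 3) (Fin 3) ℝ, Qᵀ * Q = 1 ∧ ∀ i, Q.mulVec (x i) = y i := by
  classical
  let E := EuclideanSpace ℝ (Fin 3)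
  let X : ι → E := fun i => WithLp.toLp 2 (x i)
  let Y : ι → E := fun i => WithLp.toLp 2 (y i)
  have hin : ∀ a b : (Fin 3 → ℝ), inner ℝ (WithLp.toLp 2 a : E) (WithLp.toLp 2 b : E) = a ⬝ᵥ b := by
    intro a b
    rw [EuclideanSpace.inner_eq_star_dotProduct]
    simp [dotProduct_comm]
  -- linear maps from finitely supported functions
  let LX : (ι →₀ ℝ) →ₗ[ℝ] E := Finsupp.linearCombination ℝ X
  let LY : (ι →₀ ℝ) →ₗ[ℝ] E := Finsupp.linearCombination ℝ Y
  have hXY : ∀ f g : ι →₀ ℝ, inner ℝ (LX f) (LX g) = inner ℝ (LY f) (LY g) := by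
    intro f g
    have hg : ∀ Z : ι → E, inner ℝ (Finsupp.linearCombination ℝ Z f) (Finsupp.linearCombination ℝ Z g)
        = ∑ i ∈ f.support, ∑ j ∈ g.support, f i * (g j * inner ℝ (Z i) (Z j)) := by
      intro Z
      rw [Finsupp.linearCombination_apply, Finsupp.linearCombination_apply, Finsupp.sum, Finsupp.sum,
        sum_inner]
      refine Finset.sum_congr rfl fun i _ => ?_
      rw [inner_sum]
      refine Finset.sum_congr rfl fun j _ => ?_
      rw [real_inner_smul_left, real_inner_smul_right]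
    show inner ℝ (Finsupp.linearCombination ℝ X f) (Finsupp.linearCombination ℝ X g) =
      inner ℝ (Finsupp.linearCombination ℝ Y f) (Finsupp.linearCombination ℝ Y g)
    rw [hg, hg]
    refine Finset.sum_congr rfl fun i _ => Finset.sum_congr rfl fun j _ => ?_
    show _ * (_ * inner ℝ (WithLp.toLp 2 (x i) : E) (WithLp.toLp 2 (x j) : E)) =
      _ * (_ * inner ℝ (WithLp.toLp 2 (y i) : E) (WithLp.toLp 2 (y j) : E))
    rw [hin, hin, h]
  have hker : LinearMap.ker LX ≤ LinearMap.ker LY := by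
    intro f hf
    rw [LinearMap.mem_ker] at hf ⊢
    have := hXY f f
    rw [hf, inner_zero_left] at this
    exact inner_self_eq_zero.1 this.symm
  -- the isometry on the range
  have hex : ∀ z : LinearMap.range LX, ∃ f, LX f = z := fun z => z.2
  choose s hs using hex
  have hwd : ∀ f g, LX f = LX g → LY f = LY g := by
    intro f g hfg
    have : f - g ∈ LinearMap.ker LX := by simp [hfg]
    have := hker this
    rw [LinearMap.mem_ker, map_sub, sub_eq_zero] at this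
    exact this
  let L : LinearMap.range LX →ₗ[ℝ] E :=
    { toFun := fun z => LY (s z)
      map_add' := by
        intro a b
        rw [← map_add]
        apply hwd
        rw [map_add, hs, hs, hs]; rfl
      map_smul' := by
        intro c a
        rw [RingHom.id_apply, ← map_smul]
        apply hwd
        rw [map_smul, hs, hs]; rfl }
  have hLn : ∀ z, ‖L z‖ = ‖z‖ := by
    intro z
    have h1 : ‖L z‖ ^ 2 = ‖z‖ ^ 2 := by
      rw [← real_inner_self_eq_norm_sq, Submodule.coe_norm, ← real_inner_self_eq_norm_sq]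
      show inner ℝ (LY (s z)) (LY (s z)) = _
      rw [← hXY, hs]
    exact (sq_eq_sq₀ (norm_nonneg _) (norm_nonneg _)).1 h1
  let Li : LinearMap.range LX →ₗᵢ[ℝ] E := ⟨L, hLn⟩
  let T : E →ₗᵢ[ℝ] E := Li.extend
  have hT : ∀ i, T (X i) = Y i := by
    intro i
    have hXi : LX (Finsupp.single i 1) = X i := by simp [LX]
    have hYi : LY (Finsupp.single i 1) = Y i := by simp [LY]
    have h1 := LinearIsometry.extend_apply Li ⟨X i, ⟨_, hXi⟩⟩
    show Li.extend (X i) = Y i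
    rw [h1]
    show LY (s _) = Y i
    rw [← hYi]
    apply hwd
    rw [hs, hXi]
  refine ⟨LinearMap.toMatrix' ((WithLp.linearEquiv 2 ℝ (Fin 3 → ℝ)).toLinearMap ∘ₗ T.toLinearMap ∘ₗ
    (WithLp.linearEquiv 2 ℝ (Fin 3 → ℝ)).symm.toLinearMap), ?_, ?_⟩
  · set Q := LinearMap.toMatrix' ((WithLp.linearEquiv 2 ℝ (Fin 3 → ℝ)).toLinearMap ∘ₗ T.toLinearMap ∘ₗ
      (WithLp.linearEquiv 2 ℝ (Fin 3 → ℝ)).symm.toLinearMap) with hQ
    have hQv : ∀ v : (Fin 3 → ℝ), Q.mulVec v = (T (WithLp.toLp 2 v)).ofLp := by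
      intro v
      rw [hQ, LinearMap.toMatrix'_mulVec]
      rfl
    have key : ∀ u v : (Fin 3 → ℝ), (Q.mulVec u) ⬝ᵥ (Q.mulVec v) = u ⬝ᵥ v := by
      intro u v
      rw [hQv, hQv, ← hin, ← hin u v]
      exact T.inner_map_map _ _
    ext i j
    have := key (Pi.single i 1) (Pi.single j 1)
    rw [← Matrix.vecMul_transpose, ← Matrix.dotProduct_mulVec, Matrix.mulVec_mulVec] at this
    simp only [single_dotProduct, one_mul] at this
    rw [Matrix.mulVec_single_one] at this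
    simp only [Matrix.col_apply] at this
    rw [this, Matrix.one_apply, Pi.single_apply]
  · intro i
    rw [LinearMap.toMatrix'_mulVec]
    have := hT i
    show (T (WithLp.toLp 2 (x i))).ofLp = y i
    exact congrArg WithLp.ofLp this

/-- Congruent families differ by an isometry `v ↦ Q v + w`. -/
theorem exists_isom {ι : Type*} (x y : ι → (Fin 3 → ℝ))
    (h : ∀ i j, (x i - x j) ⬝ᵥ (x i - x j) = (y i - y j) ⬝ᵥ (y i - y j)) :
    ∃ (Q : Matrix (Fin 3) (Fin 3) ℝ) (w : (Fin 3 → ℝ)), Qᵀ * Q = 1 ∧ ∀ i, Q.mulVec (x i) + w = y i := by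
  classical
  rcases isEmpty_or_nonempty ι with hι | ⟨⟨i0⟩⟩
  · exact ⟨1, 0, by simp, fun i => (hι.false i).elim⟩
  obtain ⟨Q, hQ, hx⟩ := exists_orth (fun i => x i - x i0) (fun i => y i - y i0) (by
    intro i j
    have e : ∀ a b : (Fin 3 → ℝ), a ⬝ᵥ b = (a ⬝ᵥ a + b ⬝ᵥ b - (a - b) ⬝ᵥ (a - b)) / 2 := by
      intro a b
      simp only [dotProduct_sub, sub_dotProduct]
      rw [dotProduct_comm b a]; ring
    show (x i - x i0) ⬝ᵥ (x j - x i0) = (y i - y i0) ⬝ᵥ (y j - y i0)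
    rw [e (x i - x i0), e (y i - y i0)]
    have e1 : x i - x i0 - (x j - x i0) = x i - x j := by abel
    have e2 : y i - y i0 - (y j - y i0) = y i - y j := by abel
    rw [e1, e2, h, h, h])
  refine ⟨Q, y i0 - Q.mulVec (x i0), hQ, fun i => ?_⟩
  have := hx i
  rw [Matrix.mulVec_sub] at this
  have h2 : Q.mulVec (x i) + (y i0 - Q.mulVec (x i0)) = (Q.mulVec (x i) - Q.mulVec (x i0)) + y i0 := by
    abel
  rw [h2, this]; abel

/-- determinant of an orthogonal matrix -/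
theorem det_sq {Q : Matrix (Fin 3) (Fin 3) ℝ} (h : Qᵀ * Q = 1) : Q.det = 1 ∨ Q.det = -1 := by
  have h1 : Q.det * Q.det = 1 := by
    have := congrArg Matrix.det h
    rwa [Matrix.det_mul, Matrix.det_transpose, Matrix.det_one] at this
  exact mul_self_eq_one_iff.1 h1

/-- the reflection `v ↦ v - 2 (n.v)/(n.n) n` -/
noncomputable def refl (n : (Fin 3 → ℝ)) : Matrix (Fin 3) (Fin 3) ℝ :=
  1 - (2 / (n ⬝ᵥ n)) • Matrix.vecMulVec n n

theorem refl_mulVec (n v : (Fin 3 → ℝ)) : (refl n).mulVec v = v - (2 * (n ⬝ᵥ v) / (n ⬝ᵥ n)) • n := by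
  rw [refl, Matrix.sub_mulVec, Matrix.one_mulVec, Matrix.smul_mulVec, Matrix.vecMulVec_mulVec]
  ext i
  simp
  ring

theorem refl_orth (n : (Fin 3 → ℝ)) (hn : n ≠ 0) : (refl n)ᵀ * refl n = 1 := by
  have h0 : n ⬝ᵥ n ≠ 0 := by
    intro h; exact hn (dotProduct_self_eq_zero.1 h)
  have ht : (refl n)ᵀ = refl n := by
    rw [refl, Matrix.transpose_sub, Matrix.transpose_one, Matrix.transpose_smul]
    congr 2
    ext i j
    simp [Matrix.vecMulVec_apply, mul_comm]
  rw [ht]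
  apply Matrix.ext_of_mulVec_single
  intro j
  rw [← Matrix.mulVec_mulVec, refl_mulVec, refl_mulVec, Matrix.one_mulVec]
  ext i
  simp only [Pi.sub_apply, Pi.smul_apply, smul_eq_mul, dotProduct_sub, dotProduct_smul]
  field_simp
  ring

theorem refl_det (n : (Fin 3 → ℝ)) (hn : n ≠ 0) : (refl n).det = -1 := by
  have h0 : n ⬝ᵥ n ≠ 0 := by
    intro h; exact hn (dotProduct_self_eq_zero.1 h)
  have h1 : n ⬝ᵥ n = n 0 * n 0 + n 1 * n 1 + n 2 * n 2 := by
    simp [dotProduct, Fin.sum_univ_three]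
  rw [h1] at h0
  have hc : 2 / (n ⬝ᵥ n) * (n 0 * n 0 + n 1 * n 1 + n 2 * n 2) = 2 := by
    rw [h1]; exact div_mul_cancel₀ 2 h0
  rw [refl, Matrix.det_fin_three]
  generalize 2 / (n ⬝ᵥ n) = c at hc
  simp [Matrix.vecMulVec_apply, Matrix.sub_apply, Matrix.one_apply]
  linear_combination (-1 : ℝ) * hc

/-- three points: both signs of the determinant are possible -/
theorem exists_isom_sign (x y : Fin 3 → (Fin 3 → ℝ))
    (h : ∀ i j, (x i - x j) ⬝ᵥ (x i - x j) = (y i - y j) ⬝ᵥ (y i - y j)) (s : ℝ)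
    (hs : s = 1 ∨ s = -1) :
    ∃ (Q : Matrix (Fin 3) (Fin 3) ℝ) (w : (Fin 3 → ℝ)), Qᵀ * Q = 1 ∧ Q.det = s ∧
      ∀ i, Q.mulVec (x i) + w = y i := by
  obtain ⟨Q, w, hQ, hx⟩ := exists_isom x y h
  by_cases hd : Q.det = s
  · exact ⟨Q, w, hQ, hd, hx⟩
  have hd' : Q.det = -s := by
    rcases det_sq hQ with h1 | h1 <;> rcases hs with h2 | h2 <;> subst h2 <;> simp_all
  -- a nonzero normal vector
  obtain ⟨n, hn, h1, h2⟩ : ∃ n : (Fin 3 → ℝ), n ≠ 0 ∧ n ⬝ᵥ (x 1 - x 0) = 0 ∧ n ⬝ᵥ (x 2 - x 0) = 0 := by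
    obtain ⟨n, hn, hz⟩ : ∃ n : (Fin 3 → ℝ), n ≠ 0 ∧
        (Matrix.of ![x 1 - x 0, x 2 - x 0, 0] : Matrix (Fin 3) (Fin 3) ℝ).mulVec n = 0 := by
      apply Matrix.exists_mulVec_eq_zero_iff.2
      rw [Matrix.det_fin_three]; simp
    refine ⟨n, hn, ?_, ?_⟩
    · have := congrFun hz 0
      rw [dotProduct_comm]
      exact this
    · have := congrFun hz 1
      rw [dotProduct_comm]
      exact this
  refine ⟨Q * refl n, w + Q.mulVec (x 0) - (Q * refl n).mulVec (x 0), ?_, ?_, ?_⟩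
  · rw [Matrix.transpose_mul, Matrix.mul_assoc, ← Matrix.mul_assoc Qᵀ, hQ, Matrix.one_mul,
      refl_orth n hn]
  · rw [Matrix.det_mul, refl_det n hn, hd']; ring
  · intro i
    have hi : n ⬝ᵥ (x i - x 0) = 0 := by
      fin_cases i
      · simp
      · exact h1
      · exact h2
    have h3 : (Q * refl n).mulVec (x i) = (Q * refl n).mulVec (x 0) + Q.mulVec (x i - x 0) := by
      have h4 : x i = x 0 + (x i - x 0) := by abel
      conv_lhs => rw [h4]
      rw [Matrix.mulVec_add]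
      congr 1
      rw [← Matrix.mulVec_mulVec, refl_mulVec, hi]
      simp
    rw [h3, Matrix.mulVec_sub, ← hx i]
    abel

end Vale.Agent.P054.Y.G.Gram
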