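import Mathlib

/-! P054, block G, leaf (6): a counting lemma of Kővári–Sós–Turán type.
`R l a` = adjacency of a left vertex `l` and a right vertex `a`; `Bad a b` = the pair `a, b` of right
vertices is not in general position (it should contain `a = b`); three pairwise good right vertices
have at most `s` common neighbours, and in every neighbourhood each vertex is bad with at most `r`
vertices.  Then the number of edges is at most `4 r |V| + 4 s^(1/3) |V|^(2/3) |W|`. -/

set_option linter.all false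

namespace Vale.Agent.P054.Y.G

open Finset

open scoped Classical in
/-- the third power count -/
theorem kst_cube {α β : Type*} (V : Finset α) (W : Finset β) (R : α → β → Prop)
    (Bad : β → β → Prop) (r s : ℕ)
    (hBad : ∀ l ∈ V, ∀ a ∈ W, R l a → (W.filter (fun b => R l b ∧ Bad a b)).card ≤ r)
    (hT : ∀ a ∈ W, ∀ b ∈ W, ∀ c ∈ W, ¬ Bad a b → ¬ Bad a c → ¬ Bad b c →
      (V.filter (fun l => R l a ∧ R l b ∧ R l c)).card ≤ s) :
    ∑ l ∈ V.filter (fun l => 4 * r ≤ (W.filter (R l)).card), (W.filter (R l)).card ^ 3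
      ≤ 3 * (s * W.card ^ 3) := by
  -- good triples at `l`
  set d : α → ℕ := fun l => (W.filter (R l)).card with hd
  let Gd : α → Finset (β × β × β) := fun l =>
    (W ×ˢ W ×ˢ W).filter (fun p => R l p.1 ∧ R l p.2.1 ∧ R l p.2.2 ∧
      ¬ Bad p.1 p.2.1 ∧ ¬ Bad p.1 p.2.2 ∧ ¬ Bad p.2.1 p.2.2)
  -- lower bound
  have hlow : ∀ l ∈ V.filter (fun l => 4 * r ≤ d l), d l ^ 3 ≤ 3 * (Gd l).card := by
    intro l hl
    obtain ⟨hlV, hdl⟩ := Finset.mem_filter.1 hl
    have h1 : ∀ a ∈ W, R l a → d l - r ≤ (W.filter (fun b => R l b ∧ ¬ Bad a b)).card := by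
      intro a ha hRa
      have h2 : W.filter (R l) = W.filter (fun b => R l b ∧ Bad a b) ∪
          W.filter (fun b => R l b ∧ ¬ Bad a b) := by
        ext b; simp only [mem_filter, mem_union]; tauto
      have h3 : d l ≤ (W.filter (fun b => R l b ∧ Bad a b)).card +
          (W.filter (fun b => R l b ∧ ¬ Bad a b)).card := by
        show (W.filter (R l)).card ≤ _
        rw [h2]; exact card_union_le _ _
      have := hBad l hlV a ha hRa
      omega
    have h1' : ∀ a ∈ W, R l a → ∀ b ∈ W, R l b → ¬ Bad a b →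
        d l - 2 * r ≤ (W.filter (fun c => R l c ∧ ¬ Bad a c ∧ ¬ Bad b c)).card := by
      intro a ha hRa b hb hRb hab
      have h2 : W.filter (R l) ⊆ (W.filter (fun c => R l c ∧ Bad a c) ∪
          W.filter (fun c => R l c ∧ Bad b c)) ∪
          W.filter (fun c => R l c ∧ ¬ Bad a c ∧ ¬ Bad b c) := by
        intro c; simp only [mem_filter, mem_union]; tauto
      have h3 : d l ≤ ((W.filter (fun c => R l c ∧ Bad a c)).card +
          (W.filter (fun c => R l c ∧ Bad b c)).card) +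
          (W.filter (fun c => R l c ∧ ¬ Bad a c ∧ ¬ Bad b c)).card := by
        refine (card_le_card h2).trans ((card_union_le _ _).trans ?_)
        exact Nat.add_le_add_right (card_union_le _ _) _
      have h4 := hBad l hlV a ha hRa
      have h5 := hBad l hlV b hb hRb
      omega
    -- count the triples
    have hcard : (Gd l).card = ∑ a ∈ W.filter (R l), ∑ b ∈ W.filter (fun b => R l b ∧ ¬ Bad a b),
        (W.filter (fun c => R l c ∧ ¬ Bad a c ∧ ¬ Bad b c)).card := by
      have e1 : Gd l = ((W.filter (R l)).sigma (fun a => (W.filter (fun b => R l b ∧ ¬ Bad a b)).sigma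
          (fun b => W.filter (fun c => R l c ∧ ¬ Bad a c ∧ ¬ Bad b c)))).image
          (fun x => (x.1, x.2.1, x.2.2)) := by
        ext ⟨a, b, c⟩
        simp only [Gd, mem_filter, mem_product, mem_image, mem_sigma, Prod.mk.injEq]
        constructor
        · rintro ⟨⟨h1, h2, h3⟩, h4, h5, h6, h7, h8, h9⟩
          exact ⟨⟨a, b, c⟩, ⟨⟨h1, h4⟩, ⟨h2, h5, h7⟩, h3, h6, h8, h9⟩, rfl, rfl, rfl⟩
        · rintro ⟨⟨a', b', c'⟩, ⟨⟨h1, h4⟩, ⟨h2, h5, h7⟩, h3, h6, h8, h9⟩, rfl, rfl, rfl⟩
          exact ⟨⟨h1, h2, h3⟩, h4, h5, h6, h7, h8, h9⟩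
      rw [e1, card_image_of_injOn, card_sigma]
      · exact Finset.sum_congr rfl fun a _ => by rw [card_sigma]
      · rintro ⟨a, b, c⟩ _ ⟨a', b', c'⟩ _ h
        simp only [Prod.mk.injEq] at h
        obtain ⟨rfl, rfl, rfl⟩ := h
        rfl
    have h6 : d l * ((d l - r) * (d l - 2 * r)) ≤ (Gd l).card := by
      rw [hcard]
      have : ∀ a ∈ W.filter (R l), (d l - r) * (d l - 2 * r) ≤
          ∑ b ∈ W.filter (fun b => R l b ∧ ¬ Bad a b),
          (W.filter (fun c => R l c ∧ ¬ Bad a c ∧ ¬ Bad b c)).card := by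
        intro a ha
        obtain ⟨haW, haR⟩ := mem_filter.1 ha
        calc (d l - r) * (d l - 2 * r) ≤
            (W.filter (fun b => R l b ∧ ¬ Bad a b)).card * (d l - 2 * r) :=
              Nat.mul_le_mul_right _ (h1 a haW haR)
          _ = ∑ b ∈ W.filter (fun b => R l b ∧ ¬ Bad a b), (d l - 2 * r) := by
              rw [sum_const, smul_eq_mul]
          _ ≤ _ := by
              refine sum_le_sum fun b hb => ?_
              obtain ⟨hbW, hbR, hb3⟩ := mem_filter.1 hb
              exact h1' a haW haR b hbW hbR hb3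
      calc d l * ((d l - r) * (d l - 2 * r)) = ∑ a ∈ W.filter (R l), (d l - r) * (d l - 2 * r) := by
            rw [sum_const, smul_eq_mul]
        _ ≤ _ := sum_le_sum this
    have h7 : d l ^ 3 ≤ 3 * (d l * ((d l - r) * (d l - 2 * r))) := by
      obtain ⟨e, he⟩ : ∃ e, d l = 4 * r + e := ⟨d l - 4 * r, by omega⟩
      have e1 : d l - r = 3 * r + e := by omega
      have e2 : d l - 2 * r = 2 * r + e := by omega
      rw [e1, e2, he]
      nlinarith [Nat.zero_le (r * r), Nat.zero_le (r * e), Nat.zero_le (e * e),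
        Nat.zero_le ((4 * r + e) * (r * r)), Nat.zero_le ((4 * r + e) * (r * e)),
        Nat.zero_le ((4 * r + e) * (e * e))]
    exact h7.trans (Nat.mul_le_mul_left _ h6)
  -- upper bound by double counting
  have hup : ∑ l ∈ V, (Gd l).card ≤ s * W.card ^ 3 := by
    have h1 : ∑ l ∈ V, (Gd l).card = ∑ p ∈ W ×ˢ W ×ˢ W, (V.filter (fun l => R l p.1 ∧ R l p.2.1 ∧
        R l p.2.2 ∧ ¬ Bad p.1 p.2.1 ∧ ¬ Bad p.1 p.2.2 ∧ ¬ Bad p.2.1 p.2.2)).card := by
      simp only [Gd]
      simp_rw [card_filter]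
      exact sum_comm
    rw [h1]
    have h2 : ∀ p ∈ W ×ˢ W ×ˢ W, (V.filter (fun l => R l p.1 ∧ R l p.2.1 ∧
        R l p.2.2 ∧ ¬ Bad p.1 p.2.1 ∧ ¬ Bad p.1 p.2.2 ∧ ¬ Bad p.2.1 p.2.2)).card ≤ s := by
      rintro ⟨a, b, c⟩ hp
      simp only [mem_product] at hp
      obtain ⟨ha, hb, hc⟩ := hp
      by_cases hg : ¬ Bad a b ∧ ¬ Bad a c ∧ ¬ Bad b c
      · refine le_trans (card_le_card ?_) (hT a ha b hb c hc hg.1 hg.2.1 hg.2.2)
        intro l hl
        simp only [mem_filter] at hl ⊢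
        exact ⟨hl.1, hl.2.1, hl.2.2.1, hl.2.2.2.1⟩
      · rw [filter_false_of_mem, card_empty]
        · exact Nat.zero_le _
        · intro l _ h
          exact hg h.2.2.2
    calc _ ≤ ∑ p ∈ W ×ˢ W ×ˢ W, s := sum_le_sum h2
      _ = s * W.card ^ 3 := by
        rw [sum_const, smul_eq_mul, card_product, card_product]; ring
  calc ∑ l ∈ V.filter (fun l => 4 * r ≤ d l), d l ^ 3
      ≤ ∑ l ∈ V.filter (fun l => 4 * r ≤ d l), 3 * (Gd l).card := sum_le_sum hlow
    _ ≤ ∑ l ∈ V, 3 * (Gd l).card := sum_le_sum_of_subset (filter_subset _ _)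
    _ = 3 * ∑ l ∈ V, (Gd l).card := by rw [mul_sum]
    _ ≤ 3 * (s * W.card ^ 3) := Nat.mul_le_mul_left _ hup

open scoped Classical in
/-- the edge bound with a free parameter `t` -/
theorem kst_param {α β : Type*} (V : Finset α) (W : Finset β) (R : α → β → Prop)
    (Bad : β → β → Prop) (r s : ℕ)
    (hBad : ∀ l ∈ V, ∀ a ∈ W, R l a → (W.filter (fun b => R l b ∧ Bad a b)).card ≤ r)
    (hT : ∀ a ∈ W, ∀ b ∈ W, ∀ c ∈ W, ¬ Bad a b → ¬ Bad a c → ¬ Bad b c →
      (V.filter (fun l => R l a ∧ R l b ∧ R l c)).card ≤ s) (t : ℝ) (ht : 0 < t) :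
    ((∑ l ∈ V, (W.filter (R l)).card : ℕ) : ℝ) ≤
      4 * r * V.card + t * V.card + 3 * (s * (W.card : ℝ) ^ 3) / t ^ 2 := by
  have h := kst_cube V W R Bad r s hBad hT
  have hR : (∑ l ∈ V.filter (fun l => 4 * r ≤ (W.filter (R l)).card),
      ((W.filter (R l)).card : ℝ) ^ 3) ≤ 3 * (s * (W.card : ℝ) ^ 3) := by exact_mod_cast h
  have hpt : ∀ d : ℝ, 0 ≤ d → d ≤ t + d ^ 3 / t ^ 2 := by
    intro d hd
    rcases le_or_gt d t with h1 | h1
    · have : 0 ≤ d ^ 3 / t ^ 2 := by positivity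
      linarith
    · have : d ≤ d ^ 3 / t ^ 2 := by
        rw [le_div_iff₀ (by positivity)]
        have h2 : t ^ 2 ≤ d ^ 2 := by gcongr
        nlinarith
      linarith
  rw [← sum_filter_add_sum_filter_not V (fun l => 4 * r ≤ (W.filter (R l)).card)]
  push_cast
  have hA : (∑ l ∈ V.filter (fun l => 4 * r ≤ (W.filter (R l)).card), ((W.filter (R l)).card : ℝ))
      ≤ t * V.card + 3 * (s * (W.card : ℝ) ^ 3) / t ^ 2 := by
    calc (∑ l ∈ V.filter (fun l => 4 * r ≤ (W.filter (R l)).card), ((W.filter (R l)).card : ℝ))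
        ≤ ∑ l ∈ V.filter (fun l => 4 * r ≤ (W.filter (R l)).card),
          (t + ((W.filter (R l)).card : ℝ) ^ 3 / t ^ 2) :=
          sum_le_sum fun l _ => hpt _ (Nat.cast_nonneg _)
      _ = t * (V.filter (fun l => 4 * r ≤ (W.filter (R l)).card)).card +
          (∑ l ∈ V.filter (fun l => 4 * r ≤ (W.filter (R l)).card),
            ((W.filter (R l)).card : ℝ) ^ 3) / t ^ 2 := by
          rw [sum_add_distrib, sum_const, sum_div, nsmul_eq_mul, mul_comm]
      _ ≤ _ := by
          have : ((V.filter (fun l => 4 * r ≤ (W.filter (R l)).card)).card : ℝ) ≤ V.card := by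
            exact_mod_cast card_le_card (filter_subset _ _)
          gcongr
  have hB : (∑ l ∈ V.filter (fun l => ¬ 4 * r ≤ (W.filter (R l)).card),
      ((W.filter (R l)).card : ℝ)) ≤ 4 * r * V.card := by
    calc (∑ l ∈ V.filter (fun l => ¬ 4 * r ≤ (W.filter (R l)).card), ((W.filter (R l)).card : ℝ))
        ≤ ∑ l ∈ V.filter (fun l => ¬ 4 * r ≤ (W.filter (R l)).card), (4 * r : ℝ) := by
          refine sum_le_sum fun l hl => ?_
          have := (mem_filter.1 hl).2
          have h1 : (W.filter (R l)).card ≤ 4 * r := by omega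
          exact_mod_cast h1
      _ = 4 * r * (V.filter (fun l => ¬ 4 * r ≤ (W.filter (R l)).card)).card := by
          rw [sum_const, nsmul_eq_mul, mul_comm]
      _ ≤ _ := by
          have : ((V.filter (fun l => ¬ 4 * r ≤ (W.filter (R l)).card)).card : ℝ) ≤ V.card := by
            exact_mod_cast card_le_card (filter_subset _ _)
          gcongr
  linarith

open scoped Classical in
/-- the edge bound -/
theorem kst {α β : Type*} (V : Finset α) (W : Finset β) (R : α → β → Prop)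
    (Bad : β → β → Prop) (r s : ℕ)
    (hBad : ∀ l ∈ V, ∀ a ∈ W, R l a → (W.filter (fun b => R l b ∧ Bad a b)).card ≤ r)
    (hT : ∀ a ∈ W, ∀ b ∈ W, ∀ c ∈ W, ¬ Bad a b → ¬ Bad a c → ¬ Bad b c →
      (V.filter (fun l => R l a ∧ R l b ∧ R l c)).card ≤ s) :
    ((∑ l ∈ V, (W.filter (R l)).card : ℕ) : ℝ) ≤
      4 * r * V.card + 4 * ((s : ℝ) ^ (1 / 3 : ℝ) * (V.card : ℝ) ^ (2 / 3 : ℝ) * W.card) := by
  rcases Nat.eq_zero_or_pos V.card with hV | hV
  · rw [Finset.card_eq_zero.1 hV]; simp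
  rcases Nat.eq_zero_or_pos W.card with hW | hW
  · rw [Finset.card_eq_zero.1 hW]; simp; positivity
  have hrhs : ∀ x : ℝ, 0 ≤ x → (∀ η : ℝ, 0 < η → ((∑ l ∈ V, (W.filter (R l)).card : ℕ) : ℝ) ≤
      4 * r * V.card + x + η) → ((∑ l ∈ V, (W.filter (R l)).card : ℕ) : ℝ) ≤ 4 * r * V.card + x := by
    intro x _ h
    exact le_of_forall_pos_le_add h
  have hVr : (0 : ℝ) < V.card := by exact_mod_cast hV
  have hWr : (0 : ℝ) < W.card := by exact_mod_cast hW
  rcases Nat.eq_zero_or_pos s with hs | hs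
  · -- no triples: every parameter is allowed
    refine hrhs _ (by positivity) fun η hη => ?_
    have := kst_param V W R Bad r s hBad hT (η / V.card) (by positivity)
    rw [hs] at this ⊢
    have e : η / V.card * V.card = η := by field_simp
    rw [e] at this
    simp only [Nat.cast_zero, zero_mul, mul_zero, zero_div, add_zero] at this
    have h0 : (((0 : ℕ) : ℝ)) ^ (1 / 3 : ℝ) = 0 := by
      rw [Nat.cast_zero, Real.zero_rpow (by norm_num)]
    rw [h0]
    linarith
  · have hsr : (0 : ℝ) < s := by exact_mod_cast hs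
    set a : ℝ := (s : ℝ) ^ (1 / 3 : ℝ) with ha
    set b : ℝ := (V.card : ℝ) ^ (1 / 3 : ℝ) with hb
    have ha0 : 0 < a := Real.rpow_pos_of_pos hsr _
    have hb0 : 0 < b := Real.rpow_pos_of_pos hVr _
    have ha3 : a ^ 3 = s := by
      rw [ha, ← Real.rpow_natCast, ← Real.rpow_mul hsr.le]; norm_num
    have hb3 : b ^ 3 = V.card := by
      rw [hb, ← Real.rpow_natCast, ← Real.rpow_mul hVr.le]; norm_num
    have hb2 : (V.card : ℝ) ^ (2 / 3 : ℝ) = b ^ 2 := by
      rw [hb, ← Real.rpow_natCast, ← Real.rpow_mul hVr.le]; norm_num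
    have := kst_param V W R Bad r s hBad hT (a * W.card / b) (by positivity)
    rw [hb2]
    have e1 : a * W.card / b * V.card = a * b ^ 2 * W.card := by
      rw [← hb3]; field_simp
    have e2 : 3 * (s * (W.card : ℝ) ^ 3) / (a * W.card / b) ^ 2 = 3 * (a * b ^ 2 * W.card) := by
      rw [← ha3]; field_simp
    rw [e1, e2] at this
    linarith

end Vale.Agent.P054.Y.G
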