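import Mathlib

/-! P054, block G, leaf (11): the labels of the two rulings are different (AM-GM). -/

set_option linter.all false
set_option autoImplicit false

namespace Vale.Agent.P054.Y.G

open Finset Matrix

/-- the label of a quadratic form -/
noncomputable def label (Q : Matrix (Fin 3) (Fin 3) ℝ) : ℝ := Q.trace ^ 3 / Q.det

theorem label_smul (Q : Matrix (Fin 3) (Fin 3) ℝ) {c : ℝ} (hc : c ≠ 0) :
    label (c • Q) = label Q := by
  rw [label, label, Matrix.trace_smul, Matrix.det_smul, smul_eq_mul, Fintype.card_fin]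
  rw [mul_pow, mul_div_mul_left _ _ (pow_ne_zero 3 hc)]

theorem label_conj (Q O : Matrix (Fin 3) (Fin 3) ℝ) (hO : Oᵀ * O = 1) :
    label (Oᵀ * Q * O) = label Q := by
  have hO' : O * Oᵀ = 1 := mul_eq_one_comm.1 hO
  have h1 : (Oᵀ * Q * O).trace = Q.trace := by
    rw [Matrix.trace_mul_comm, ← Matrix.mul_assoc, hO', Matrix.one_mul]
  have h2 : (Oᵀ * Q * O).det = Q.det := by
    have h3 : O.det * O.det = 1 := by
      have := congrArg Matrix.det hO
      rw [Matrix.det_mul, Matrix.det_transpose, Matrix.det_one] at this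
      exact this
    rw [Matrix.det_mul, Matrix.det_mul, Matrix.det_transpose]
    linear_combination Q.det * h3
  rw [label, label, h1, h2]

/-- AM-GM with equality case in the form needed -/
theorem amgm3 {a b c : ℝ} (ha : 0 < a) (hb : 0 < b) (hc : 0 < c)
    (h : (a + b + c - 3) ^ 3 = a * b * c * (3 - (1 / a + 1 / b + 1 / c)) ^ 3) :
    a = b ∧ b = c := by
  -- cube roots
  obtain ⟨x, hx, hxa⟩ : ∃ x : ℝ, 0 < x ∧ x ^ 3 = a :=
    ⟨a ^ (1 / 3 : ℝ), Real.rpow_pos_of_pos ha _, by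
      rw [← Real.rpow_natCast, ← Real.rpow_mul ha.le]; norm_num⟩
  obtain ⟨y, hy, hyb⟩ : ∃ y : ℝ, 0 < y ∧ y ^ 3 = b :=
    ⟨b ^ (1 / 3 : ℝ), Real.rpow_pos_of_pos hb _, by
      rw [← Real.rpow_natCast, ← Real.rpow_mul hb.le]; norm_num⟩
  obtain ⟨z, hz, hzc⟩ : ∃ z : ℝ, 0 < z ∧ z ^ 3 = c :=
    ⟨c ^ (1 / 3 : ℝ), Real.rpow_pos_of_pos hc _, by
      rw [← Real.rpow_natCast, ← Real.rpow_mul hc.le]; norm_num⟩
  subst hxa; subst hyb; subst hzc
  have h1 : (x ^ 3 + y ^ 3 + z ^ 3 - 3) ^ 3 =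
      (x * y * z * (3 - (1 / x ^ 3 + 1 / y ^ 3 + 1 / z ^ 3))) ^ 3 := by
    rw [h]; ring
  have h2 : x ^ 3 + y ^ 3 + z ^ 3 - 3 = x * y * z * (3 - (1 / x ^ 3 + 1 / y ^ 3 + 1 / z ^ 3)) := by
    have hodd : Odd 3 := by decide
    exact (hodd.strictMono_pow (R := ℝ)).injective h1
  -- multiply: x³+y³+z³ - 3xyz + xyz(1/x³+1/y³+1/z³) - 3 = 0
  set p := 1 / x with hp
  set q := 1 / y with hq
  set r := 1 / z with hr
  have hp0 : 0 < p := by positivity
  have hq0 : 0 < q := by positivity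
  have hr0 : 0 < r := by positivity
  have hxp : x * p = 1 := by rw [hp]; field_simp
  have hyq : y * q = 1 := by rw [hq]; field_simp
  have hzr : z * r = 1 := by rw [hr]; field_simp
  have e1 : 1 / x ^ 3 = p ^ 3 := by rw [hp]; ring
  have e2 : 1 / y ^ 3 = q ^ 3 := by rw [hq]; ring
  have e3 : 1 / z ^ 3 = r ^ 3 := by rw [hr]; ring
  rw [e1, e2, e3] at h2
  have h3 : (x ^ 3 + y ^ 3 + z ^ 3 - 3 * (x * y * z)) +
      (x * y * z) * (p ^ 3 + q ^ 3 + r ^ 3 - 3 * (p * q * r)) = 0 := by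
    have hpqr : x * y * z * (p * q * r) = 1 := by
      calc x * y * z * (p * q * r) = (x * p) * (y * q) * (z * r) := by ring
        _ = 1 := by rw [hxp, hyq, hzr]; norm_num
    linear_combination h2 - 3 * hpqr
  have key : ∀ u v w : ℝ, u ^ 3 + v ^ 3 + w ^ 3 - 3 * (u * v * w) =
      (u + v + w) * ((u - v) ^ 2 + (v - w) ^ 2 + (u - w) ^ 2) / 2 := by
    intro u v w; ring
  rw [key x y z, key p q r] at h3
  have hs : 0 < x + y + z := by positivity
  have hs' : 0 < p + q + r := by positivity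
  have n1 : 0 ≤ (x + y + z) * ((x - y) ^ 2 + (y - z) ^ 2 + (x - z) ^ 2) / 2 := by positivity
  have n2 : 0 ≤ x * y * z * ((p + q + r) * ((p - q) ^ 2 + (q - r) ^ 2 + (p - r) ^ 2) / 2) := by
    positivity
  have h4 : (x + y + z) * ((x - y) ^ 2 + (y - z) ^ 2 + (x - z) ^ 2) / 2 = 0 := by linarith
  have h5 : (x - y) ^ 2 + (y - z) ^ 2 + (x - z) ^ 2 = 0 := by
    have : (x + y + z) * ((x - y) ^ 2 + (y - z) ^ 2 + (x - z) ^ 2) = 0 := by linarith
    rcases mul_eq_zero.1 this with h | h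
    · exact absurd h hs.ne'
    · exact h
  have hxy0 : (x - y) ^ 2 = 0 :=
    le_antisymm (by linarith [sq_nonneg (y - z), sq_nonneg (x - z)]) (sq_nonneg _)
  have hyz0 : (y - z) ^ 2 = 0 :=
    le_antisymm (by linarith [sq_nonneg (x - y), sq_nonneg (x - z)]) (sq_nonneg _)
  have hxy : x = y := sub_eq_zero.1 (pow_eq_zero_iff (two_ne_zero) |>.1 hxy0)
  have hyz : y = z := sub_eq_zero.1 (pow_eq_zero_iff (two_ne_zero) |>.1 hyz0)
  exact ⟨by rw [hxy], by rw [hyz]⟩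

theorem exists_diag' (S : Matrix (Fin 3) (Fin 3) ℝ) (hps : S.PosSemidef) (hS : S.det ≠ 0) :
    ∃ (O : Matrix (Fin 3) (Fin 3) ℝ) (d : Fin 3 → ℝ), O * Oᵀ = 1 ∧ (∀ i, 0 < d i) ∧
      S = O * diagonal d * Oᵀ := by
  have hH := hps.isHermitian
  have hOO : (hH.eigenvectorUnitary : Matrix (Fin 3) (Fin 3) ℝ) *
      (hH.eigenvectorUnitary : Matrix (Fin 3) (Fin 3) ℝ)ᵀ = 1 := by
    have := Unitary.coe_mul_star_self hH.eigenvectorUnitary
    rw [← Matrix.conjTranspose_eq_transpose_of_trivial]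
    exact this
  have hsp : S = (hH.eigenvectorUnitary : Matrix (Fin 3) (Fin 3) ℝ) * diagonal hH.eigenvalues *
      (hH.eigenvectorUnitary : Matrix (Fin 3) (Fin 3) ℝ)ᵀ := by
    have h := hH.spectral_theorem
    rw [Unitary.conjStarAlgAut_apply] at h
    rw [← Matrix.conjTranspose_eq_transpose_of_trivial]
    exact h
  have hdet : (∏ i, hH.eigenvalues i) ≠ 0 := by
    have := hH.det_eq_prod_eigenvalues
    intro h0
    apply hS
    rw [this]
    exact_mod_cast h0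
  refine ⟨_, hH.eigenvalues, hOO, ?_, hsp⟩
  intro i
  have h0 := hps.eigenvalues_nonneg i
  refine lt_of_le_of_ne h0 (Ne.symm ?_)
  exact Finset.prod_ne_zero_iff.1 hdet i (Finset.mem_univ i)

/-- diagonalisation of `Aᵀ A` -/
theorem exists_diag (A : Matrix (Fin 3) (Fin 3) ℝ) (hA : A.det ≠ 0) :
    ∃ (O : Matrix (Fin 3) (Fin 3) ℝ) (d : Fin 3 → ℝ), O * Oᵀ = 1 ∧ (∀ i, 0 < d i) ∧
      Aᵀ * A = O * diagonal d * Oᵀ := by
  apply exists_diag'
  · have := Matrix.posSemidef_conjTranspose_mul_self A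
    rwa [Matrix.conjTranspose_eq_transpose_of_trivial] at this
  · rw [Matrix.det_mul, Matrix.det_transpose]
    exact mul_ne_zero hA hA

/-- **the two rulings have different labels** -/
theorem label_ne (A : Matrix (Fin 3) (Fin 3) ℝ) (hA : A.det ≠ 0)
    (hS : (Aᵀ * A - 1).det ≠ 0) (x : Fin 3 → ℝ) (hx : x ≠ 0)
    (hxA : A.mulVec x ⬝ᵥ A.mulVec x = x ⬝ᵥ x) :
    label (Aᵀ * A - 1) ≠ label (1 - (Aᵀ * A)⁻¹) := by
  obtain ⟨O, d, hO, hd, hsp⟩ := exists_diag A hA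
  have hO' : Oᵀ * O = 1 := mul_eq_one_comm.1 hO
  have hinv : (Aᵀ * A)⁻¹ = O * diagonal (fun i => 1 / d i) * Oᵀ := by
    apply Matrix.inv_eq_right_inv
    rw [hsp]
    calc O * diagonal d * Oᵀ * (O * diagonal (fun i => 1 / d i) * Oᵀ)
        = O * diagonal d * (Oᵀ * O) * diagonal (fun i => 1 / d i) * Oᵀ := by
          simp only [Matrix.mul_assoc]
      _ = O * (diagonal d * diagonal (fun i => 1 / d i)) * Oᵀ := by
          rw [hO', Matrix.mul_one]; simp only [Matrix.mul_assoc]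
      _ = O * 1 * Oᵀ := by
          congr 2
          rw [Matrix.diagonal_mul_diagonal, ← Matrix.diagonal_one]
          congr 1
          funext i
          exact mul_one_div_cancel (hd i).ne'
      _ = 1 := by rw [Matrix.mul_one, hO]
  have e1 : Aᵀ * A - 1 = Oᵀᵀ * (diagonal (fun i => d i - 1)) * Oᵀ := by
    rw [Matrix.transpose_transpose, hsp]
    have : diagonal (fun i => d i - 1) = diagonal d - (1 : Matrix (Fin 3) (Fin 3) ℝ) := by
      rw [← Matrix.diagonal_one, Matrix.diagonal_sub]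
    rw [this, Matrix.mul_sub, Matrix.sub_mul, Matrix.mul_one, hO]
  have e2 : 1 - (Aᵀ * A)⁻¹ = Oᵀᵀ * (diagonal (fun i => 1 - 1 / d i)) * Oᵀ := by
    rw [Matrix.transpose_transpose, hinv]
    have : diagonal (fun i => 1 - 1 / d i) =
        (1 : Matrix (Fin 3) (Fin 3) ℝ) - diagonal (fun i => 1 / d i) := by
      rw [← Matrix.diagonal_one, Matrix.diagonal_sub]
    rw [this, Matrix.mul_sub, Matrix.sub_mul, Matrix.mul_one, hO]
  have hOt : Oᵀᵀ * Oᵀ = 1 := by rw [Matrix.transpose_transpose, hO]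
  have hdet : (d 0 - 1) * (d 1 - 1) * (d 2 - 1) ≠ 0 := by
    intro h0
    apply hS
    rw [e1, Matrix.det_mul, Matrix.det_mul, Matrix.det_diagonal, Fin.prod_univ_three, h0]
    ring
  intro heq
  rw [e1, e2, label_conj _ _ hOt, label_conj _ _ hOt, label, label, Matrix.trace_diagonal,
    Matrix.trace_diagonal, Matrix.det_diagonal, Matrix.det_diagonal, Fin.sum_univ_three,
    Fin.sum_univ_three, Fin.prod_univ_three, Fin.prod_univ_three] at heq
  have h0 := (hd 0).ne'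
  have h1 := (hd 1).ne'
  have h2 := (hd 2).ne'
  have hprod : (1 - 1 / d 0) * (1 - 1 / d 1) * (1 - 1 / d 2) =
      ((d 0 - 1) * (d 1 - 1) * (d 2 - 1)) / (d 0 * d 1 * d 2) := by
    field_simp
  rw [hprod] at heq
  have hq : (d 0 + d 1 + d 2 - 3) ^ 3 =
      d 0 * d 1 * d 2 * (3 - (1 / d 0 + 1 / d 1 + 1 / d 2)) ^ 3 := by
    have h3 : (d 0 - 1 + (d 1 - 1) + (d 2 - 1)) ^ 3 =
        (1 - 1 / d 0 + (1 - 1 / d 1) + (1 - 1 / d 2)) ^ 3 * (d 0 * d 1 * d 2) := by
      rw [div_div_eq_mul_div, div_left_inj' hdet] at heq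
      exact heq
    calc (d 0 + d 1 + d 2 - 3) ^ 3 = (d 0 - 1 + (d 1 - 1) + (d 2 - 1)) ^ 3 := by ring
      _ = _ := h3
      _ = _ := by ring
  obtain ⟨h01, h12⟩ := amgm3 (hd 0) (hd 1) (hd 2) hq
  have hdc : d = fun _ => d 0 := by
    funext i
    fin_cases i
    · rfl
    · exact h01.symm
    · exact (h01.trans h12).symm
  have hScal : Aᵀ * A = d 0 • (1 : Matrix (Fin 3) (Fin 3) ℝ) := by
    rw [hsp, hdc]
    have : diagonal (fun _ : Fin 3 => d 0) = d 0 • (1 : Matrix (Fin 3) (Fin 3) ℝ) := by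
      rw [Matrix.smul_one_eq_diagonal]
    rw [this, Matrix.mul_smul, Matrix.smul_mul, Matrix.mul_one, hO]
  have hxx : A.mulVec x ⬝ᵥ A.mulVec x = d 0 * (x ⬝ᵥ x) := by
    rw [Matrix.dotProduct_mulVec, ← Matrix.mulVec_transpose, Matrix.mulVec_mulVec, hScal,
      Matrix.smul_mulVec, Matrix.one_mulVec, smul_dotProduct, smul_eq_mul]
  have hx0 : x ⬝ᵥ x ≠ 0 := fun h => hx (dotProduct_self_eq_zero.1 h)
  have hd1 : d 0 = 1 := by
    have : (d 0 - 1) * (x ⬝ᵥ x) = 0 := by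
      rw [sub_mul, one_mul, ← hxx, hxA, sub_self]
    rcases mul_eq_zero.1 this with h | h
    · linarith
    · exact absurd h hx0
  apply hdet
  rw [hd1]
  ring

/-- form for block G: labels = trace of the form normalised to determinant `1` -/
theorem class_ne (A B : Matrix (Fin 3) (Fin 3) ℝ) (hAB : Aᵀ * B = 1)
    (hdet : (1 - Aᵀ * A).det ≠ 0) (x : Fin 3 → ℝ) (hx : x ≠ 0)
    (hxA : A.mulVec x ⬝ᵥ A.mulVec x = x ⬝ᵥ x) (l m : ℝ)
    (hl : l ^ 3 * (1 - Aᵀ * A).det = 1) (hm : m ^ 3 * (1 - Bᵀ * B).det = 1) :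
    l * (1 - Aᵀ * A).trace ≠ m * (1 - Bᵀ * B).trace := by
  have hA : A.det ≠ 0 := by
    intro h0
    have := congrArg Matrix.det hAB
    rw [Matrix.det_mul, Matrix.det_transpose, h0, zero_mul, Matrix.det_one] at this
    exact zero_ne_one this
  have hneg : 1 - Aᵀ * A = (-1 : ℝ) • (Aᵀ * A - 1) := by
    rw [neg_smul, one_smul, neg_sub]
  have hS : (Aᵀ * A - 1).det ≠ 0 := by
    intro h0
    apply hdet
    rw [hneg, Matrix.det_smul, h0, mul_zero]
  have hinv : (Aᵀ * A)⁻¹ = Bᵀ * B := by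
    apply Matrix.inv_eq_right_inv
    have hBA : Bᵀ * A = 1 := by
      have := congrArg Matrix.transpose hAB
      rw [Matrix.transpose_mul, Matrix.transpose_transpose, Matrix.transpose_one] at this
      exact this
    have hABt : A * Bᵀ = 1 := mul_eq_one_comm.1 hBA
    calc Aᵀ * A * (Bᵀ * B) = Aᵀ * (A * Bᵀ) * B := by simp only [Matrix.mul_assoc]
      _ = 1 := by rw [hABt, Matrix.mul_one, hAB]
  have key := label_ne A hA hS x hx hxA
  rw [hinv, ← label_smul (Aᵀ * A - 1) (c := (-1 : ℝ)) (by norm_num), ← hneg] at key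
  intro heq
  apply key
  have e1 : label (1 - Aᵀ * A) = (l * (1 - Aᵀ * A).trace) ^ 3 := by
    rw [label, div_eq_iff hdet]
    linear_combination (-(1 - Aᵀ * A).trace ^ 3) * hl
  have hdet' : (1 - Bᵀ * B).det ≠ 0 := by
    intro h0
    rw [h0, mul_zero] at hm
    exact zero_ne_one hm
  have e2 : label (1 - Bᵀ * B) = (m * (1 - Bᵀ * B).trace) ^ 3 := by
    rw [label, div_eq_iff hdet']
    linear_combination (-(1 - Bᵀ * B).trace ^ 3) * hm
  rw [e1, e2, heq]

end Vale.Agent.P054.Y.G
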