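import Mathlib
import Vale.Agent.P054.LinearST

/-! Leaf (13) of block G: few pairs of points of a finite set of `ℝ³` lie on rich lines. -/

set_option autoImplicit false
set_option linter.all false

open Finset

namespace Vale.Agent.P054.Y.G

/-- homogeneous coordinates -/
def hom4 (p : Fin 3 → ℝ) : (Fin 3 → ℝ) × ℝ := (p, 1)

/-- the line through `a` and `b` in homogeneous coordinates -/
noncomputable def pl4 (a b : Fin 3 → ℝ) : Submodule ℝ ((Fin 3 → ℝ) × ℝ) :=
  Submodule.span ℝ {hom4 a, hom4 b}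

theorem exists_smul_of_cross {u w : Fin 3 → ℝ} (hu : u ≠ 0) (h : crossProduct u w = 0) :
    ∃ t : ℝ, w = t • u := by
  rw [cross_apply] at h
  have h0 := congrFun h 0
  have h1 := congrFun h 1
  have h2 := congrFun h 2
  simp at h0 h1 h2
  by_cases hu0 : u 0 = 0
  · by_cases hu1 : u 1 = 0
    · by_cases hu2 : u 2 = 0
      · exfalso
        apply hu
        funext i
        fin_cases i <;> simp [hu0, hu1, hu2]
      · refine ⟨w 2 / u 2, ?_⟩
        funext i
        fin_cases i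
        · simp; field_simp; linarith
        · simp; field_simp; linarith
        · simp; field_simp
    · refine ⟨w 1 / u 1, ?_⟩
      funext i
      fin_cases i
      · simp; field_simp; linarith
      · simp; field_simp
      · simp; field_simp; linarith
  · refine ⟨w 0 / u 0, ?_⟩
    funext i
    fin_cases i
    · simp; field_simp
    · simp; field_simp; linarith
    · simp; field_simp; linarith

theorem mem_pl4 {a b p : Fin 3 → ℝ} (hab : a ≠ b) :
    hom4 p ∈ pl4 a b ↔ crossProduct (b - a) (p - a) = 0 := by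
  unfold pl4
  rw [Submodule.mem_span_pair]
  constructor
  · rintro ⟨x, y, h⟩
    have h1 := congrArg Prod.fst h
    have h2 := congrArg Prod.snd h
    simp [hom4] at h1 h2
    have h3 : p - a = y • (b - a) := by
      rw [← h1]
      have : x = 1 - y := by linarith
      rw [this]
      module
    rw [h3, map_smul, cross_self, smul_zero]
  · intro h
    obtain ⟨t, ht⟩ := exists_smul_of_cross (sub_ne_zero.2 hab.symm) h
    refine ⟨1 - t, t, ?_⟩
    have h1 : p = a + t • (b - a) := by rw [← ht]; abel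
    unfold hom4
    refine Prod.ext ?_ ?_
    · simp only [Prod.fst_add, Prod.smul_fst]
      rw [h1]
      module
    · simp

theorem hom4_inj {a b : Fin 3 → ℝ} {c : ℝ} (h : c • hom4 a = hom4 b) : a = b := by
  have h1 := congrArg Prod.fst h
  have h2 := congrArg Prod.snd h
  simp [hom4] at h1 h2
  rw [← h1, h2, one_smul]

theorem finrank_pl4 {a b : Fin 3 → ℝ} (hab : a ≠ b) : Module.finrank ℝ (pl4 a b) = 2 := by
  have hli : LinearIndependent ℝ ![hom4 a, hom4 b] := by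
    rw [LinearIndependent.pair_iff]
    intro s t h
    have h1 := congrArg Prod.fst h
    have h2 := congrArg Prod.snd h
    simp [hom4] at h1 h2
    have hs : s = -t := by linarith
    rw [hs] at h1
    have h3 : t • (b - a) = 0 := by rw [← h1]; module
    rcases smul_eq_zero.1 h3 with h4 | h4
    · exact ⟨by rw [hs, h4, neg_zero], h4⟩
    · exact absurd (sub_eq_zero.1 h4).symm hab
  have h := finrank_span_eq_card hli
  have hr : Set.range ![hom4 a, hom4 b] = {hom4 a, hom4 b} := by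
    simp [Matrix.range_cons, Matrix.range_empty, Set.pair_comm]
  rw [hr] at h
  unfold pl4
  rw [h]
  simp

open scoped Classical in
/-- number of points of `P` on the line through the two points of the pair `q` -/
noncomputable def cntL (P : Finset (Fin 3 → ℝ)) (q : (Fin 3 → ℝ) × (Fin 3 → ℝ)) : ℕ :=
  (P.filter (fun p => crossProduct (q.2 - q.1) (p - q.1) = 0)).card

open scoped Classical in
theorem rich_level (P : Finset (Fin 3 → ℝ)) (κ R Λ : ℝ)
    (hΛ : 12 * Real.log (P.card + 1) + 1 ≤ Λ) (hκ : 64 * Λ ≤ κ) (hR : 0 ≤ R)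
    (Q : Finset ((Fin 3 → ℝ) × (Fin 3 → ℝ)))
    (hQ : ∀ q ∈ Q, q.1 ∈ P ∧ q.2 ∈ P ∧ q.1 ≠ q.2 ∧ κ ≤ (cntL P q : ℝ) ∧ (cntL P q : ℝ) ≤ R) :
    (Q.card : ℝ) ≤ (2 ^ 12 * Λ ^ 2 * ((P.card : ℝ) ^ 2 / κ ^ 3) + 2 * (P.card / κ)) * R ^ 2 := by
  have hfil : ∀ q ∈ Q, (P.filter fun p => hom4 p ∈ pl4 q.1 q.2).card = cntL P q := by
    intro q hq
    unfold cntL
    congr 1
    apply filter_congr
    intro p _
    exact mem_pl4 (hQ q hq).2.2.1
  have h1 := card_le_mul_card_image (s := Q) (f := fun q => pl4 q.1 q.2) (n := ⌊R ^ 2⌋₊) (by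
    intro A hA
    obtain ⟨q0, hq0, rfl⟩ := mem_image.1 hA
    have hsub : (Q.filter fun q => pl4 q.1 q.2 = pl4 q0.1 q0.2) ⊆
        (P.filter fun p => hom4 p ∈ pl4 q0.1 q0.2) ×ˢ
          (P.filter fun p => hom4 p ∈ pl4 q0.1 q0.2) := by
      intro q hq
      rw [mem_filter] at hq
      rw [mem_product, mem_filter, mem_filter, ← hq.2]
      refine ⟨⟨(hQ q hq.1).1, ?_⟩, ⟨(hQ q hq.1).2.1, ?_⟩⟩
      · exact Submodule.subset_span (by simp)
      · exact Submodule.subset_span (by simp)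
    refine (card_le_card hsub).trans ?_
    rw [card_product, hfil q0 hq0]
    apply Nat.le_floor
    push_cast
    rw [sq]
    exact mul_le_mul (hQ q0 hq0).2.2.2.2 (hQ q0 hq0).2.2.2.2 (Nat.cast_nonneg _) hR)
  have h3 := linearST (V := (Fin 3 → ℝ) × ℝ) (ι := Fin 3 → ℝ) P hom4 1 κ Λ
    (by
      intro i _ h0
      have := congrArg Prod.snd h0
      simp [hom4] at this)
    (by
      intro i hi
      unfold mass
      have : (P.filter fun j => hom4 j ∈ Submodule.span ℝ {hom4 i}) ⊆ {i} := by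
        intro j hj
        rw [mem_filter] at hj
        obtain ⟨c, hc⟩ := Submodule.mem_span_singleton.1 hj.2
        rw [mem_singleton]
        exact (hom4_inj hc).symm
      have h2 := card_le_card this
      rw [card_singleton] at h2
      exact_mod_cast h2)
    one_pos (Q.image fun q => pl4 q.1 q.2)
    (by
      intro B hB
      obtain ⟨q, hq, rfl⟩ := mem_image.1 hB
      refine ⟨finrank_pl4 (hQ q hq).2.2.1, ?_⟩
      unfold mass
      have h4 := hfil q hq
      have h5 := (hQ q hq).2.2.2.1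
      rw [← h4] at h5
      exact_mod_cast h5)
    hΛ (by rw [mul_one]; exact hκ)
  have h4 : (Q.card : ℝ) ≤ (⌊R ^ 2⌋₊ : ℝ) * ((Q.image fun q => pl4 q.1 q.2).card : ℝ) := by
    exact_mod_cast h1
  have h5 : (⌊R ^ 2⌋₊ : ℝ) ≤ R ^ 2 := Nat.floor_le (sq_nonneg R)
  calc (Q.card : ℝ) ≤ (⌊R ^ 2⌋₊ : ℝ) * ((Q.image fun q => pl4 q.1 q.2).card : ℝ) := h4
    _ ≤ R ^ 2 * ((Q.image fun q => pl4 q.1 q.2).card : ℝ) :=
        mul_le_mul_of_nonneg_right h5 (Nat.cast_nonneg _)
    _ ≤ R ^ 2 * (2 ^ 12 * Λ ^ 2 * (1 * (P.card : ℝ) ^ 2 / κ ^ 3) + 2 * (P.card / κ)) :=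
        mul_le_mul_of_nonneg_left h3 (sq_nonneg R)
    _ = _ := by rw [one_mul]; exact mul_comm _ _

open scoped Classical in
/-- pairs of points on lines with between `κ` and `R` points -/
theorem rich_all (P : Finset (Fin 3 → ℝ)) (κ R Λ : ℝ)
    (hΛ : 12 * Real.log (P.card + 1) + 1 ≤ Λ) (hκ : 64 * Λ ≤ κ) (hR : 0 ≤ R)
    (Q : Finset ((Fin 3 → ℝ) × (Fin 3 → ℝ)))
    (hQ : ∀ q ∈ Q, q.1 ∈ P ∧ q.2 ∈ P ∧ q.1 ≠ q.2 ∧ κ ≤ (cntL P q : ℝ) ∧ (cntL P q : ℝ) ≤ R) :
    (Q.card : ℝ) ≤ 2 ^ 15 * Λ ^ 2 * ((P.card : ℝ) ^ 2 / κ) + 16 * P.card * R := by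
  have hlog : 0 ≤ Real.log ((P.card : ℝ) + 1) := Real.log_nonneg (by
    have : (0 : ℝ) ≤ P.card := Nat.cast_nonneg _
    linarith)
  have hΛ1 : 1 ≤ Λ := by linarith
  have hκ0 : 0 < κ := by linarith
  have hT0 : (0 : ℝ) ≤ P.card := Nat.cast_nonneg _
  have main : ∀ n : ℕ, ∀ κ : ℝ, 64 * Λ ≤ κ → 0 < κ → κ ≤ 2 * R → R < 2 ^ n * κ →
      ∀ Q : Finset ((Fin 3 → ℝ) × (Fin 3 → ℝ)), (∀ q ∈ Q, q.1 ∈ P ∧ q.2 ∈ P ∧ q.1 ≠ q.2 ∧
        κ ≤ (cntL P q : ℝ) ∧ (cntL P q : ℝ) ≤ R) →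
      (Q.card : ℝ) ≤ 2 ^ 15 * Λ ^ 2 * ((P.card : ℝ) ^ 2 / κ) + 16 * P.card * R -
        8 * P.card * κ := by
    intro n
    induction n with
    | zero =>
      intro κ _ hκ0 hκR hlt Q hQ
      rw [pow_zero, one_mul] at hlt
      have hQe : Q = ∅ := by
        rw [eq_empty_iff_forall_notMem]
        intro q hq
        obtain ⟨_, _, _, h1, h2⟩ := hQ q hq
        linarith
      rw [hQe, card_empty]
      push_cast
      have h1 : 0 ≤ 2 ^ 15 * Λ ^ 2 * ((P.card : ℝ) ^ 2 / κ) := by positivity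
      have h2 : 0 ≤ (P.card : ℝ) * (2 * R - κ) := mul_nonneg hT0 (by linarith)
      nlinarith
    | succ n ih =>
      intro κ hκ hκ0 hκR hlt Q hQ
      rcases lt_or_ge R κ with hRκ | hRκ
      · have hQe : Q = ∅ := by
          rw [eq_empty_iff_forall_notMem]
          intro q hq
          obtain ⟨_, _, _, h1, h2⟩ := hQ q hq
          linarith
        rw [hQe, card_empty]
        push_cast
        have h1 : 0 ≤ 2 ^ 15 * Λ ^ 2 * ((P.card : ℝ) ^ 2 / κ) := by positivity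
        have h2 : 0 ≤ (P.card : ℝ) * (2 * R - κ) := mul_nonneg hT0 (by linarith)
        nlinarith
      · obtain ⟨Q1, hQ1⟩ : ∃ Q1 : Finset ((Fin 3 → ℝ) × (Fin 3 → ℝ)), Q1 = Q.filter fun q =>
            (cntL P q : ℝ) ≤ 2 * κ := ⟨_, rfl⟩
        obtain ⟨Q2, hQ2⟩ : ∃ Q2 : Finset ((Fin 3 → ℝ) × (Fin 3 → ℝ)), Q2 = Q.filter fun q =>
            ¬ (cntL P q : ℝ) ≤ 2 * κ := ⟨_, rfl⟩
        have hcard : (Q.card : ℝ) = Q1.card + Q2.card := by
          rw [hQ1, hQ2]
          exact_mod_cast (card_filter_add_card_filter_not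
            (s := Q) (fun q => (cntL P q : ℝ) ≤ 2 * κ)).symm
        have e1 := rich_level P κ (2 * κ) Λ hΛ hκ (by linarith) Q1 (by
          intro q hq
          rw [hQ1, mem_filter] at hq
          obtain ⟨a, b, c, d, _⟩ := hQ q hq.1
          exact ⟨a, b, c, d, hq.2⟩)
        have e2 := ih (2 * κ) (by linarith) (by linarith) (by linarith)
          (by rw [pow_succ] at hlt; linarith) Q2 (by
          intro q hq
          rw [hQ2, mem_filter] at hq
          obtain ⟨a, b, c, h3, h4⟩ := hQ q hq.1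
          exact ⟨a, b, c, (not_le.1 hq.2).le, h4⟩)
        have e3 : (2 ^ 12 * Λ ^ 2 * ((P.card : ℝ) ^ 2 / κ ^ 3) + 2 * (P.card / κ)) *
            (2 * κ) ^ 2 = 2 ^ 14 * Λ ^ 2 * ((P.card : ℝ) ^ 2 / κ) + 8 * P.card * κ := by
          field_simp
          ring
        have e4 : 2 ^ 15 * Λ ^ 2 * ((P.card : ℝ) ^ 2 / (2 * κ)) =
            2 ^ 14 * Λ ^ 2 * ((P.card : ℝ) ^ 2 / κ) := by
          field_simp
        rw [e3] at e1
        rw [e4] at e2
        rw [hcard]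
        have e5 : 2 ^ 15 * Λ ^ 2 * ((P.card : ℝ) ^ 2 / κ) =
            2 ^ 14 * Λ ^ 2 * ((P.card : ℝ) ^ 2 / κ) + 2 ^ 14 * Λ ^ 2 * ((P.card : ℝ) ^ 2 / κ) := by
          ring
        rw [e5]
        linarith
  rcases lt_or_ge R κ with hRκ | hRκ
  · have hQe : Q = ∅ := by
      rw [eq_empty_iff_forall_notMem]
      intro q hq
      obtain ⟨_, _, _, h1, h2⟩ := hQ q hq
      linarith
    rw [hQe, card_empty]
    push_cast
    positivity
  · obtain ⟨n, hn⟩ := pow_unbounded_of_one_lt (R / κ) (one_lt_two : (1 : ℝ) < 2)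
    rw [div_lt_iff₀ hκ0] at hn
    have := main n κ hκ hκ0 (by linarith) hn Q hQ
    have h2 : 0 ≤ 8 * (P.card : ℝ) * κ := by positivity
    linarith

open scoped Classical in
/-- If no line contains more than `n ^ (1 - e)` points of `P`, at most `n ^ (2 - e / 2)` ordered
pairs of points of `P` lie on lines with at least `n ^ e` points of `P`. -/
theorem poor_pairs (e : ℝ) (he : 0 < e) (he1 : e < 1) :
    ∃ n0 : ℕ, ∀ P : Finset (Fin 3 → ℝ), n0 ≤ P.card →
      (∀ a ∈ P, ∀ b ∈ P, a ≠ b → (cntL P (a, b) : ℝ) ≤ (P.card : ℝ) ^ (1 - e)) →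
      (((P ×ˢ P).filter (fun q => q.1 ≠ q.2 ∧ (P.card : ℝ) ^ e ≤ (cntL P q : ℝ))).card : ℝ) ≤
        (P.card : ℝ) ^ (2 - e / 2) := by
  have hlogo := (isLittleO_log_rpow_atTop (show 0 < e / 8 by positivity)).bound
    (show (0:ℝ) < 1 by norm_num)
  have hpow1 := (tendsto_rpow_atTop (show 0 < e / 8 by positivity)).eventually_ge_atTop
    (64 * 40)
  have hpow2 := (tendsto_rpow_atTop (show 0 < e / 4 by positivity)).eventually_ge_atTop
    (2 ^ 16 * 40 ^ 2)
  have hall := hlogo.and (hpow1.and (hpow2.and (Filter.eventually_ge_atTop (3:ℝ))))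
  obtain ⟨N, hN⟩ := Filter.eventually_atTop.1 hall
  refine ⟨⌈N⌉₊, fun P hP hline => ?_⟩
  have hn : N ≤ (P.card : ℝ) := (Nat.le_ceil N).trans (by exact_mod_cast hP)
  obtain ⟨h1, h2, h3, h4⟩ := hN _ hn
  set n : ℝ := (P.card : ℝ) with hndef
  have hn0 : 0 < n := by linarith
  have hn1 : 1 ≤ n := by linarith
  have hx0 : 0 < n ^ (e / 8) := Real.rpow_pos_of_pos hn0 _
  have hx1 : 1 ≤ n ^ (e / 8) := Real.one_le_rpow hn1 (by positivity)
  -- the logarithm
  have hlog : Real.log n ≤ n ^ (e / 8) := by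
    have h5 := (le_abs_self _).trans h1
    rwa [Real.norm_of_nonneg hx0.le, one_mul] at h5
  have hlog2 : Real.log (n + 1) ≤ Real.log n + 1 := by
    have h6 : n + 1 ≤ n * Real.exp 1 := by
      have := Real.add_one_le_exp (1:ℝ)
      nlinarith
    calc Real.log (n + 1) ≤ Real.log (n * Real.exp 1) := Real.log_le_log (by linarith) h6
      _ = Real.log n + 1 := by rw [Real.log_mul hn0.ne' (Real.exp_pos _).ne', Real.log_exp]
  have hΛ : 12 * Real.log (n + 1) + 1 ≤ 40 * n ^ (e / 8) := by linarith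
  have hsq : n ^ (e / 8) * n ^ (e / 8) = n ^ (e / 4) := by
    rw [← Real.rpow_add hn0]; congr 1; ring
  have hne : n ^ e = n ^ (e / 8) * n ^ (7 * e / 8) := by
    rw [← Real.rpow_add hn0]; congr 1; ring
  have hge : n ^ (e / 8) ≤ n ^ (7 * e / 8) :=
    Real.rpow_le_rpow_of_exponent_le hn1 (by linarith)
  have hκ : 64 * (40 * n ^ (e / 8)) ≤ n ^ e := by
    rw [hne]
    have h7 : 64 * 40 ≤ n ^ (7 * e / 8) := le_trans h2 hge
    nlinarith
  have key := rich_all P (n ^ e) (n ^ (1 - e)) (40 * n ^ (e / 8)) hΛ hκ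
    (Real.rpow_nonneg hn0.le _)
    ((P ×ˢ P).filter (fun q => q.1 ≠ q.2 ∧ (P.card : ℝ) ^ e ≤ (cntL P q : ℝ))) (by
      intro q hq
      rw [mem_filter, mem_product] at hq
      exact ⟨hq.1.1, hq.1.2, hq.2.1, hq.2.2, hline q.1 hq.1.1 q.2 hq.1.2 hq.2.1⟩)
  refine key.trans ?_
  -- numerics
  have hA : 2 ^ 15 * (40 * n ^ (e / 8)) ^ 2 * (n ^ 2 / n ^ e) ≤ n ^ (2 - e / 2) / 2 := by
    have e1 : (n ^ 2 : ℝ) / n ^ e = n ^ (2 - e) := by
      rw [Real.rpow_sub hn0]
      norm_num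
    have e2 : n ^ (2 - e / 2) = n ^ (2 - e) * n ^ (e / 4) * n ^ (e / 4) := by
      rw [← Real.rpow_add hn0, ← Real.rpow_add hn0]; congr 1; ring
    rw [e1, e2, mul_pow, sq (n ^ (e / 8)), hsq]
    have h8 : 0 < n ^ (2 - e) := Real.rpow_pos_of_pos hn0 _
    have h9 : 0 < n ^ (e / 4) := Real.rpow_pos_of_pos hn0 _
    have h10 : (2 ^ 16 * 40 ^ 2) * (n ^ (2 - e) * n ^ (e / 4)) ≤
        n ^ (e / 4) * (n ^ (2 - e) * n ^ (e / 4)) :=
      mul_le_mul_of_nonneg_right h3 (by positivity)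
    nlinarith
  have hB : 16 * n * n ^ (1 - e) ≤ n ^ (2 - e / 2) / 2 := by
    have e1 : n * n ^ (1 - e) = n ^ (2 - e) := by
      nth_rewrite 1 [← Real.rpow_one n]
      rw [← Real.rpow_add hn0]; congr 1; ring
    have e2 : n ^ (2 - e / 2) = n ^ (2 - e) * n ^ (e / 4) * n ^ (e / 4) := by
      rw [← Real.rpow_add hn0, ← Real.rpow_add hn0]; congr 1; ring
    have e3 : 16 * n * n ^ (1 - e) = 16 * n ^ (2 - e) := by rw [mul_assoc, e1]
    rw [e3, e2]
    have h8 : 0 < n ^ (2 - e) := Real.rpow_pos_of_pos hn0 _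
    have h9 : 1 ≤ n ^ (e / 4) := Real.one_le_rpow hn1 (by positivity)
    have h10 : (2 ^ 16 * 40 ^ 2) * (n ^ (2 - e) * n ^ (e / 4)) ≤
        n ^ (e / 4) * (n ^ (2 - e) * n ^ (e / 4)) :=
      mul_le_mul_of_nonneg_right h3 (by positivity)
    have h11 : n ^ (2 - e) ≤ n ^ (2 - e) * n ^ (e / 4) := by nlinarith
    nlinarith
  linarith

end Vale.Agent.P054.Y.G
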