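import Mathlib

/-!
P054, block (G), step (6) of the three-views argument: linear algebra of two apices.
-/

set_option autoImplicit false

namespace Vale.Agent.P054.Y.G

open Module

set_option linter.unusedSectionVars false

variable {E : Type} [NormedAddCommGroup E] [InnerProductSpace ℝ E] [FiniteDimensional ℝ E]

/-- a proper subspace lies in a hyperplane -/
theorem exists_normal {W : Submodule ℝ E} (hW : W ≠ ⊤) : ∃ n : E, n ≠ 0 ∧ ∀ x ∈ W, inner ℝ n x = 0 := by
  have h1 : Wᗮ ≠ ⊥ := by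
    intro h
    exact hW ((Submodule.orthogonal_eq_bot_iff).1 h)
  obtain ⟨n, hn, hn0⟩ := (Submodule.ne_bot_iff _).1 h1
  refine ⟨n, hn0, fun x hx => ?_⟩
  exact Submodule.inner_left_of_mem_orthogonal hx hn

/-- the pairs of `V` form the graph of a linear map if the first components span and the
dimension is small -/
theorem exists_graph (hE : finrank ℝ E = 3) (J : Set (E × E))
    (hsp : Submodule.span ℝ (Prod.fst '' J) = ⊤)
    (hdim : finrank ℝ (Submodule.span ℝ J) ≤ 3) :
    ∃ L : E →ₗ[ℝ] E, ∀ q ∈ J, q.2 = L q.1 := by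
  set V := Submodule.span ℝ J with hV
  set π : V →ₗ[ℝ] E := (LinearMap.fst ℝ E E).comp V.subtype with hπ
  have hsurj : Function.Surjective π := by
    rw [← LinearMap.range_eq_top]
    rw [hπ, LinearMap.range_comp, Submodule.range_subtype, hV, Submodule.map_span]
    simpa using hsp
  have hdV : finrank ℝ V = finrank ℝ E := by
    apply le_antisymm
    · rw [hE]
      exact hdim
    · have := LinearMap.finrank_range_add_finrank_ker π
      rw [LinearMap.range_eq_top.2 hsurj, finrank_top] at this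
      omega
  have hinj : Function.Injective π :=
    (LinearMap.injective_iff_surjective_of_finrank_eq_finrank hdV).2 hsurj
  set e : V ≃ₗ[ℝ] E := LinearEquiv.ofBijective π ⟨hinj, hsurj⟩ with he
  refine ⟨(LinearMap.snd ℝ E E).comp (V.subtype.comp e.symm.toLinearMap), ?_⟩
  intro q hq
  have h1 : e ⟨q, Submodule.subset_span hq⟩ = q.1 := rfl
  have h2 : e.symm q.1 = ⟨q, Submodule.subset_span hq⟩ := by
    rw [← h1, LinearEquiv.symm_apply_apply]
  simp [h2]

/-- all first points of `J` lie on two planes -/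
def TwoPlanes (J : Set (E × E)) : Prop :=
  ∃ n₁ n₂ : E, ∃ k₁ k₂ : ℝ, n₁ ≠ 0 ∧ n₂ ≠ 0 ∧
    ∀ q ∈ J, inner ℝ n₁ q.1 = k₁ ∨ inner ℝ n₂ q.1 = k₂

theorem TwoPlanes.of_one {J : Set (E × E)} {n : E} {k : ℝ} (hn : n ≠ 0)
    (h : ∀ q ∈ J, inner ℝ n q.1 = k) : TwoPlanes J :=
  ⟨n, n, k, k, hn, hn, fun q hq => Or.inl (h q hq)⟩

/-- the differences from a point span, unless the first points are in a plane -/
theorem span_sub (J : Set (E × E)) (a c : E) (h : ¬ TwoPlanes J) :
    Submodule.span ℝ (Prod.fst '' ((fun q : E × E => (q.1 - a, q.2 - c)) '' J)) = ⊤ := by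
  by_contra hne
  obtain ⟨n, hn, hx⟩ := exists_normal hne
  apply h
  refine TwoPlanes.of_one hn (k := inner ℝ n a) ?_
  intro q hq
  have h1 : q.1 - a ∈ Submodule.span ℝ
      (Prod.fst '' ((fun q : E × E => (q.1 - a, q.2 - c)) '' J)) := by
    apply Submodule.subset_span
    exact ⟨(q.1 - a, q.2 - c), ⟨q, hq, rfl⟩, rfl⟩
  have h2 := hx _ h1
  rw [inner_sub_right] at h2
  linarith

theorem span_pair_ne_top (hE : finrank ℝ E = 3) (x y : E) :
    Submodule.span ℝ ({x, y} : Set E) ≠ ⊤ := by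
  classical
  intro h
  have h4 := finrank_span_finset_le_card (R := ℝ) ({x, y} : Finset E)
  rw [Finset.coe_pair, Set.finrank, h, finrank_top, hE] at h4
  have h5 : ({x, y} : Finset E).card ≤ 2 := Finset.card_le_two
  omega

/-- the zero set of a quadratic form that kills a direction -/
theorem two_planes_of_kernel (L : E →ₗ[ℝ] E) (a w : E) (J : Set (E × E)) (hw : w ≠ 0)
    (hker : ∀ x, inner ℝ (L x) (L w) = inner ℝ x w)
    (hq : ∀ q ∈ J, ‖L (q.1 - a)‖ = ‖q.1 - a‖) (hJ : ¬ TwoPlanes J) (hE : finrank ℝ E = 3) :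
    ∀ x, ‖L x‖ = ‖x‖ := by
  have hspan := span_sub J a a hJ
  set X : Set E := Prod.fst '' ((fun q : E × E => (q.1 - a, q.2 - a)) '' J) with hX
  have hXq : ∀ x ∈ X, inner ℝ (L x) (L x) = inner ℝ x x := by
    rintro x ⟨y, ⟨q, hq', rfl⟩, rfl⟩
    have := hq q hq'
    simp only [real_inner_self_eq_norm_sq]
    rw [this]
  -- a point of `X` outside the line of `w`
  have h1 : ∃ x₁ ∈ X, x₁ ∉ Submodule.span ℝ {w} := by
    by_contra hcon
    push Not at hcon
    have h2 : Submodule.span ℝ X ≤ Submodule.span ℝ {w} := Submodule.span_le.2 hcon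
    rw [hspan] at h2
    have h3 : finrank ℝ (Submodule.span ℝ {w}) = 3 := by
      rw [top_le_iff.1 h2, finrank_top, hE]
    have h4 : finrank ℝ (Submodule.span ℝ {w}) = 1 := finrank_span_singleton hw
    omega
  obtain ⟨x₁, hx₁, hx₁w⟩ := h1
  have h2 : ∃ x₂ ∈ X, x₂ ∉ Submodule.span ℝ {w, x₁} := by
    by_contra hcon
    push Not at hcon
    have h2 : Submodule.span ℝ X ≤ Submodule.span ℝ {w, x₁} := Submodule.span_le.2 hcon
    rw [hspan] at h2
    exact span_pair_ne_top hE w x₁ (top_le_iff.1 h2)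
  obtain ⟨x₂, hx₂, hx₂w⟩ := h2
  -- the three vectors span
  have hlt1 : Submodule.span ℝ {w} < Submodule.span ℝ {w, x₁} := by
    refine lt_of_le_of_ne (Submodule.span_mono (by simp)) ?_
    intro h
    apply hx₁w
    rw [h]
    exact Submodule.subset_span (by simp)
  have hlt2 : Submodule.span ℝ {w, x₁} < Submodule.span ℝ {x₂, w, x₁} := by
    refine lt_of_le_of_ne (Submodule.span_mono (Set.subset_insert _ _)) ?_
    intro h
    apply hx₂w
    rw [h]
    exact Submodule.subset_span (by simp)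
  have htop : Submodule.span ℝ {x₂, w, x₁} = ⊤ := by
    apply Submodule.eq_top_of_finrank_eq
    have e0 : finrank ℝ (Submodule.span ℝ {w}) = 1 := finrank_span_singleton hw
    have e1 := Submodule.finrank_lt_finrank_of_lt hlt1
    have e2 := Submodule.finrank_lt_finrank_of_lt hlt2
    have e3 : finrank ℝ (Submodule.span ℝ {x₂, w, x₁}) ≤ finrank ℝ E := Submodule.finrank_le _
    omega
  have hdec : ∀ x : E, ∃ α β γ : ℝ, x = α • w + β • x₁ + γ • x₂ := by
    intro x
    have hx : x ∈ Submodule.span ℝ {x₂, w, x₁} := by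
      rw [htop]
      trivial
    obtain ⟨γ, z, hz, rfl⟩ := Submodule.mem_span_insert.1 hx
    obtain ⟨α, β, rfl⟩ := Submodule.mem_span_pair.1 hz
    exact ⟨α, β, γ, by abel⟩
  set δ : ℝ := inner ℝ (L x₁) (L x₂) - inner ℝ x₁ x₂ with hδ
  have e11 := hXq x₁ hx₁
  have e22 := hXq x₂ hx₂
  have ew := hker w
  have e1 := hker x₁
  have e2 := hker x₂
  have hform : ∀ α β γ : ℝ, inner ℝ (L (α • w + β • x₁ + γ • x₂)) (L (α • w + β • x₁ + γ • x₂)) =
      inner ℝ (α • w + β • x₁ + γ • x₂) (α • w + β • x₁ + γ • x₂) + 2 * β * γ * δ := by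
    intro α β γ
    have c1 : inner ℝ (L w) (L x₁) = inner ℝ w x₁ := by
      rw [real_inner_comm, e1, real_inner_comm]
    have c2 : inner ℝ (L w) (L x₂) = inner ℝ w x₂ := by
      rw [real_inner_comm, e2, real_inner_comm]
    have c12 : inner ℝ (L x₂) (L x₁) = inner ℝ x₂ x₁ + δ := by
      rw [real_inner_comm (L x₁), real_inner_comm x₁]
      ring
    have c21 : inner ℝ (L x₁) (L x₂) = inner ℝ x₁ x₂ + δ := by ring
    simp only [map_add, map_smul, inner_add_left, inner_add_right, inner_smul_left,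
      inner_smul_right, conj_trivial]
    rw [c1, c2, c12, c21, e11, e22, ew, e1, e2]
    ring
  by_cases hδ0 : δ = 0
  · intro x
    obtain ⟨α, β, γ, rfl⟩ := hdec x
    have h := hform α β γ
    rw [hδ0, mul_zero, add_zero, real_inner_self_eq_norm_sq, real_inner_self_eq_norm_sq] at h
    exact (sq_eq_sq₀ (norm_nonneg _) (norm_nonneg _)).1 h
  · exfalso
    apply hJ
    obtain ⟨n₁, hn₁, hn₁'⟩ := exists_normal (span_pair_ne_top hE w x₁)
    obtain ⟨n₂, hn₂, hn₂'⟩ := exists_normal (span_pair_ne_top hE w x₂)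
    refine ⟨n₁, n₂, inner ℝ n₁ a, inner ℝ n₂ a, hn₁, hn₂, ?_⟩
    intro q hq'
    obtain ⟨α, β, γ, hx⟩ := hdec (q.1 - a)
    have h := hform α β γ
    rw [← hx, real_inner_self_eq_norm_sq, real_inner_self_eq_norm_sq, hq q hq'] at h
    have h3 : β * γ = 0 := by
      have : (β * γ) * δ = 0 := by linarith
      rcases mul_eq_zero.1 this with h | h
      · exact h
      · exact absurd h hδ0
    rcases mul_eq_zero.1 h3 with h | h
    · right
      have h4 : inner ℝ n₂ (q.1 - a) = 0 := by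
        apply hn₂'
        rw [hx, h]
        rw [Submodule.mem_span_pair]
        exact ⟨α, γ, by simp⟩
      rw [inner_sub_right] at h4
      linarith
    · left
      have h4 : inner ℝ n₁ (q.1 - a) = 0 := by
        apply hn₁'
        rw [hx, h]
        rw [Submodule.mem_span_pair]
        exact ⟨α, β, by simp⟩
      rw [inner_sub_right] at h4
      linarith

/-- **Step (6)**: two apices -/
theorem two_apices (hE : finrank ℝ E = 3) (J : Set (E × E)) (a b c d : E) (hab : a ≠ b)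
    (h1 : ∀ q ∈ J, ‖q.1 - a‖ = ‖q.2 - c‖) (h2 : ∀ q ∈ J, ‖q.1 - b‖ = ‖q.2 - d‖)
    (hA : finrank ℝ (Submodule.span ℝ ((fun q : E × E => (q.1 - a, q.2 - c)) '' J)) ≤ 3)
    (hB : finrank ℝ (Submodule.span ℝ ((fun q : E × E => (q.1 - b, q.2 - d)) '' J)) ≤ 3) :
    TwoPlanes J ∨ ∃ L : E →ₗ[ℝ] E, (∀ x, ‖L x‖ = ‖x‖) ∧ L (b - a) = d - c ∧
      ∀ q ∈ J, q.2 - c = L (q.1 - a) := by
  by_cases hJ : TwoPlanes J
  · exact Or.inl hJ
  right
  obtain ⟨L, hL⟩ := exists_graph hE _ (span_sub J a c hJ) hA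
  obtain ⟨L', hL'⟩ := exists_graph hE _ (span_sub J b d hJ) hB
  have hLq : ∀ q ∈ J, q.2 - c = L (q.1 - a) := fun q hq => hL _ ⟨q, hq, rfl⟩
  have hLq' : ∀ q ∈ J, q.2 - d = L' (q.1 - b) := fun q hq => hL' _ ⟨q, hq, rfl⟩
  have hne : J.Nonempty := by
    by_contra h
    rw [Set.not_nonempty_iff_eq_empty] at h
    apply hJ
    rw [h]
    exact ⟨a - b, a - b, 0, 0, sub_ne_zero.2 hab, sub_ne_zero.2 hab, by simp⟩
  obtain ⟨q₀, hq₀⟩ := hne
  have hLL : L = L' := by
    have hs := span_sub J q₀.1 q₀.2 hJ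
    apply LinearMap.ext_on_range (v := fun q : J => (q : E × E).1 - q₀.1)
    · rw [← hs]
      congr 1
      ext x
      constructor
      · rintro ⟨q, rfl⟩
        exact ⟨_, ⟨q, q.2, rfl⟩, rfl⟩
      · rintro ⟨y, ⟨q, hq, rfl⟩, rfl⟩
        exact ⟨⟨q, hq⟩, rfl⟩
    · rintro ⟨q, hq⟩
      have e1 := hLq q hq
      have e2 := hLq q₀ hq₀
      have e3 := hLq' q hq
      have e4 := hLq' q₀ hq₀
      have e5 : L (q.1 - q₀.1) = L (q.1 - a) - L (q₀.1 - a) := by
        rw [← map_sub]
        congr 1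
        abel
      have e6 : L' (q.1 - q₀.1) = L' (q.1 - b) - L' (q₀.1 - b) := by
        rw [← map_sub]
        congr 1
        abel
      simp only
      rw [e5, e6, ← e1, ← e2, ← e3, ← e4]
      abel
  subst hLL
  have hdc : L (b - a) = d - c := by
    have e1 := hLq q₀ hq₀
    have e3 := hLq' q₀ hq₀
    have e5 : L (b - a) = L (q₀.1 - a) - L (q₀.1 - b) := by
      rw [← map_sub]
      congr 1
      abel
    rw [e5, ← e1, ← e3]
    abel
  refine ⟨L, ?_, hdc, hLq⟩
  have n1 : ∀ q ∈ J, ‖L (q.1 - a)‖ = ‖q.1 - a‖ := by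
    intro q hq
    rw [← hLq q hq]
    exact (h1 q hq).symm
  have n2 : ∀ q ∈ J, ‖L (q.1 - b)‖ = ‖q.1 - b‖ := by
    intro q hq
    rw [← hLq' q hq]
    exact (h2 q hq).symm
  -- the linear equation
  set w : E := a - b with hw
  have hw0 : w ≠ 0 := sub_ne_zero.2 hab
  set n : E := (LinearMap.adjoint L) (L w) - w with hn
  have hD : ∀ x : E, inner ℝ n x = inner ℝ (L x) (L w) - inner ℝ x w := by
    intro x
    rw [hn, inner_sub_left, LinearMap.adjoint_inner_left, real_inner_comm (L x) (L w),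
      real_inner_comm x w]
  have hplane : ∀ q ∈ J, 2 * inner ℝ n (q.1 - a) + inner ℝ n w = 0 := by
    intro q hq
    have e1 := n1 q hq
    have e2 := n2 q hq
    have e3 : q.1 - b = (q.1 - a) + w := by
      rw [hw]
      abel
    rw [e3, map_add] at e2
    have e4 : ‖L (q.1 - a) + L w‖ ^ 2 = ‖q.1 - a + w‖ ^ 2 := by rw [e2]
    rw [norm_add_sq_real, norm_add_sq_real, e1] at e4
    have e5 := hD (q.1 - a)
    have e6 := hD w
    rw [real_inner_self_eq_norm_sq, real_inner_self_eq_norm_sq] at e6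
    linarith
  by_cases hn0 : n = 0
  · apply two_planes_of_kernel L a w J hw0 ?_ n1 hJ hE
    intro x
    have := hD x
    rw [hn0, inner_zero_left] at this
    linarith
  · exfalso
    apply hJ
    refine TwoPlanes.of_one hn0 (k := inner ℝ n a - inner ℝ n w / 2) ?_
    intro q hq
    have := hplane q hq
    rw [inner_sub_right] at this
    linarith

end Vale.Agent.P054.Y.G
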