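import Mathlib
import Vale.Agent.P041.SE.ESV

/-! Fibre lines in the Cayley chart of `SO(3)` and the vector field lemma (`V_b` argument): an
irreducible polynomial `φ` vanishes on at most `deg φ (deg φ + 1) #U + 2 #V` of the lines
`{ω : v - u = ω × (u + v)}`, `u ∈ U`, `v ∈ V`. -/

namespace Vale.Agent.P054.Y.G

open Finset MvPolynomial
open Vale.Agent.P041.SE

/-- The fibre line `{ω : v - u = ω × (u + v)}` (for `|u| = |v|`, `u 2 + v 2 ≠ 0`) as a graph
line. -/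
noncomputable def fl (u v : Fin 3 → ℝ) : Ln :=
  (![-(v 1 - u 1) / (u 2 + v 2), (v 0 - u 0) / (u 2 + v 2)],
    ![(u 0 + v 0) / (u 2 + v 2), (u 1 + v 1) / (u 2 + v 2)])

/-- admissible pairs: equal length, and not in the plane at infinity of the chart -/
def Adm (u v : Fin 3 → ℝ) : Prop :=
  u 0 ^ 2 + u 1 ^ 2 + u 2 ^ 2 = v 0 ^ 2 + v 1 ^ 2 + v 2 ^ 2 ∧ u 2 + v 2 ≠ 0

/-- The vector field `c_u(ω) = u + ω × u + (ω · u) ω`. -/
noncomputable def W (u : Fin 3 → ℝ) (φ : MvPolynomial (Fin 3) ℝ) : MvPolynomial (Fin 3) ℝ :=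
  (C (u 0) + (X 1 * C (u 2) - X 2 * C (u 1)) +
      (X 0 * C (u 0) + X 1 * C (u 1) + X 2 * C (u 2)) * X 0) * pderiv 0 φ +
    (C (u 1) + (X 2 * C (u 0) - X 0 * C (u 2)) +
      (X 0 * C (u 0) + X 1 * C (u 1) + X 2 * C (u 2)) * X 1) * pderiv 1 φ +
    (C (u 2) + (X 0 * C (u 1) - X 1 * C (u 0)) +
      (X 0 * C (u 0) + X 1 * C (u 1) + X 2 * C (u 2)) * X 2) * pderiv 2 φ

theorem W_mul (u : Fin 3 → ℝ) (φ ψ : MvPolynomial (Fin 3) ℝ) :
    W u (φ * ψ) = W u φ * ψ + φ * W u ψ := by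
  unfold W
  simp only [pderiv_mul]
  ring

/-- cross product -/
def crs (u v : Fin 3 → ℝ) : Fin 3 → ℝ :=
  ![u 1 * v 2 - u 2 * v 1, u 2 * v 0 - u 0 * v 2, u 0 * v 1 - u 1 * v 0]

theorem W_comm (u u' : Fin 3 → ℝ) (φ : MvPolynomial (Fin 3) ℝ) :
    W u (W u' φ) - W u' (W u φ) = 2 * W (crs u u') φ := by
  have p01 : ∀ ψ : MvPolynomial (Fin 3) ℝ, pderiv 1 (pderiv 0 ψ) = pderiv 0 (pderiv 1 ψ) :=
    fun ψ => pderiv_comm' 1 0 ψ
  have p02 : ∀ ψ : MvPolynomial (Fin 3) ℝ, pderiv 2 (pderiv 0 ψ) = pderiv 0 (pderiv 2 ψ) :=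
    fun ψ => pderiv_comm' 2 0 ψ
  have p12 : ∀ ψ : MvPolynomial (Fin 3) ℝ, pderiv 2 (pderiv 1 ψ) = pderiv 1 (pderiv 2 ψ) :=
    fun ψ => pderiv_comm' 2 1 ψ
  have x01 : pderiv 0 (X 1 : MvPolynomial (Fin 3) ℝ) = 0 := pderiv_X_of_ne (by decide)
  have x02 : pderiv 0 (X 2 : MvPolynomial (Fin 3) ℝ) = 0 := pderiv_X_of_ne (by decide)
  have x10 : pderiv 1 (X 0 : MvPolynomial (Fin 3) ℝ) = 0 := pderiv_X_of_ne (by decide)
  have x12 : pderiv 1 (X 2 : MvPolynomial (Fin 3) ℝ) = 0 := pderiv_X_of_ne (by decide)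
  have x20 : pderiv 2 (X 0 : MvPolynomial (Fin 3) ℝ) = 0 := pderiv_X_of_ne (by decide)
  have x21 : pderiv 2 (X 1 : MvPolynomial (Fin 3) ℝ) = 0 := pderiv_X_of_ne (by decide)
  unfold W crs
  simp only [pderiv_mul, map_add, map_sub, pderiv_C, pderiv_X_self, x01, x02, x10,
    x12, x20, x21, p01, p02, p12, map_mul, Matrix.cons_val_zero, Matrix.cons_val_one,
    Matrix.cons_val]
  ring

theorem totalDegree_W_le (u : Fin 3 → ℝ) (φ : MvPolynomial (Fin 3) ℝ) (hφ : 0 < φ.totalDegree) :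
    (W u φ).totalDegree ≤ φ.totalDegree + 1 := by
  have l : ∀ (i : Fin 3) (s : ℝ), (X i * C s : MvPolynomial (Fin 3) ℝ).totalDegree ≤ 1 := by
    intro i s
    refine (totalDegree_mul _ _).trans ?_
    simp
  have l2 : ∀ (i j k m : Fin 3) (r s t : ℝ), (C r + (X i * C s - X j * C t) +
      (X 0 * C (u 0) + X 1 * C (u 1) + X 2 * C (u 2)) * X m :
        MvPolynomial (Fin 3) ℝ).totalDegree ≤ 2 := by
    intro i j k m r s t
    refine (totalDegree_add _ _).trans (max_le ((totalDegree_add _ _).trans (max_le ?_ ?_)) ?_)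
    · simp
    · exact (totalDegree_sub _ _).trans (max_le ((l _ _).trans (by norm_num))
        ((l _ _).trans (by norm_num)))
    · refine (totalDegree_mul _ _).trans ?_
      have h1 : (X 0 * C (u 0) + X 1 * C (u 1) + X 2 * C (u 2) :
          MvPolynomial (Fin 3) ℝ).totalDegree ≤ 1 :=
        (totalDegree_add _ _).trans (max_le ((totalDegree_add _ _).trans
          (max_le (l _ _) (l _ _))) (l _ _))
      have h2 : (X m : MvPolynomial (Fin 3) ℝ).totalDegree = 1 := totalDegree_X m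
      omega
  have h0 := totalDegree_pderiv_le 0 φ
  have h1 := totalDegree_pderiv_le 1 φ
  have h2 := totalDegree_pderiv_le 2 φ
  unfold W
  refine (totalDegree_add _ _).trans (max_le ((totalDegree_add _ _).trans (max_le ?_ ?_)) ?_)
  · refine (totalDegree_mul _ _).trans ?_
    have := l2 1 2 0 0 (u 0) (u 2) (u 1)
    omega
  · refine (totalDegree_mul _ _).trans ?_
    have := l2 2 0 0 1 (u 1) (u 0) (u 2)
    omega
  · refine (totalDegree_mul _ _).trans ?_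
    have := l2 0 1 0 2 (u 2) (u 1) (u 0)
    omega

/-- points of the fibre line: `v - u = ω × (u + v)` -/
theorem mem_fl_iff {u v : Fin 3 → ℝ} (h : Adm u v) (x : Fin 3 → ℝ) :
    (∃ w, gpt (fl u v) w = x) ↔ (v 0 - u 0 = x 1 * (u 2 + v 2) - x 2 * (u 1 + v 1) ∧
      v 1 - u 1 = x 2 * (u 0 + v 0) - x 0 * (u 2 + v 2) ∧
      v 2 - u 2 = x 0 * (u 1 + v 1) - x 1 * (u 0 + v 0)) := by
  obtain ⟨hl, hs⟩ := h
  constructor
  · rintro ⟨w, rfl⟩
    have e0 : gpt (fl u v) w 0 = -(v 1 - u 1) / (u 2 + v 2) + (u 0 + v 0) / (u 2 + v 2) * w := rfl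
    have e1 : gpt (fl u v) w 1 = (v 0 - u 0) / (u 2 + v 2) + (u 1 + v 1) / (u 2 + v 2) * w := rfl
    have e2 : gpt (fl u v) w 2 = w := rfl
    rw [e0, e1, e2]
    refine ⟨by field_simp; ring, by field_simp; ring, ?_⟩
    field_simp
    linear_combination -hl
  · rintro ⟨h0, h1, h2⟩
    refine ⟨x 2, ?_⟩
    funext i
    fin_cases i
    · show -(v 1 - u 1) / (u 2 + v 2) + (u 0 + v 0) / (u 2 + v 2) * x 2 = x 0
      field_simp
      linear_combination -h1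
    · show (v 0 - u 0) / (u 2 + v 2) + (u 1 + v 1) / (u 2 + v 2) * x 2 = x 1
      field_simp
      linear_combination h0
    · rfl

theorem On_W {φ : MvPolynomial (Fin 3) ℝ} {u v : Fin 3 → ℝ} (h : Adm u v)
    (hφ : On φ (fl u v)) : On (W u φ) (fl u v) := by
  set b0 : ℝ := (u 0 + v 0) / (u 2 + v 2) with hb0
  set b1 : ℝ := (u 1 + v 1) / (u 2 + v 2) with hb1
  set a0 : ℝ := -(v 1 - u 1) / (u 2 + v 2) with ha0
  set a1 : ℝ := (v 0 - u 0) / (u 2 + v 2) with ha1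
  set p : Fin 3 → Polynomial ℝ := ![Polynomial.C a0 + Polynomial.C b0 * Polynomial.X,
    Polynomial.C a1 + Polynomial.C b1 * Polynomial.X, Polynomial.X] with hp
  have hev : ∀ (ψ : MvPolynomial (Fin 3) ℝ) (w : ℝ),
      (aeval p ψ).eval w = eval (gpt (fl u v) w) ψ := by
    intro ψ w
    rw [← Polynomial.coe_evalRingHom, ← MvPolynomial.coe_aeval_eq_eval]
    induction ψ using MvPolynomial.induction_on with
    | C r => simp
    | add f g hf hg => simp only [map_add, hf, hg]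
    | mul_X f j hf =>
      simp only [map_mul, hf, aeval_X]
      congr 1
      fin_cases j <;> simp [hp, gpt, fl, ha0, ha1, hb0, hb1]
  have h0 : aeval p φ = 0 := Polynomial.funext (fun w => by rw [hev, hφ w]; simp)
  have h1 := chain_rule p φ
  rw [h0, Polynomial.derivative_zero, Fin.sum_univ_three] at h1
  intro w
  have h2 := congrArg (Polynomial.eval w) h1
  simp only [Polynomial.eval_zero, Polynomial.eval_add, Polynomial.eval_mul, hev] at h2
  have d0 : Polynomial.eval w (Polynomial.derivative (p 0)) = b0 := by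
    simp [hp]
  have d1 : Polynomial.eval w (Polynomial.derivative (p 1)) = b1 := by
    simp [hp]
  have d2 : Polynomial.eval w (Polynomial.derivative (p 2)) = 1 := by
    simp [hp]
  rw [d0, d1, d2] at h2
  obtain ⟨E0, E1, E2⟩ := (mem_fl_iff h _).1 ⟨w, rfl⟩
  set x := gpt (fl u v) w with hx
  have hs := h.2
  have c0 : u 0 + (x 1 * u 2 - x 2 * u 1) + (x 0 * u 0 + x 1 * u 1 + x 2 * u 2) * x 0 =
      (1 + x 0 ^ 2 + x 1 ^ 2 + x 2 ^ 2) * (u 0 + v 0) / 2 := by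
    linear_combination (-1/2) * (E0 + x 1 * E2 - x 2 * E1 + x 0 * (x 0 * E0 + x 1 * E1 + x 2 * E2))
  have c1 : u 1 + (x 2 * u 0 - x 0 * u 2) + (x 0 * u 0 + x 1 * u 1 + x 2 * u 2) * x 1 =
      (1 + x 0 ^ 2 + x 1 ^ 2 + x 2 ^ 2) * (u 1 + v 1) / 2 := by
    linear_combination (-1/2) * (E1 + x 2 * E0 - x 0 * E2 + x 1 * (x 0 * E0 + x 1 * E1 + x 2 * E2))
  have c2 : u 2 + (x 0 * u 1 - x 1 * u 0) + (x 0 * u 0 + x 1 * u 1 + x 2 * u 2) * x 2 =
      (1 + x 0 ^ 2 + x 1 ^ 2 + x 2 ^ 2) * (u 2 + v 2) / 2 := by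
    linear_combination (-1/2) * (E2 + x 0 * E1 - x 1 * E0 + x 2 * (x 0 * E0 + x 1 * E1 + x 2 * E2))
  have f0 : (u 0 + v 0) = b0 * (u 2 + v 2) := by rw [hb0]; field_simp
  have f1 : (u 1 + v 1) = b1 * (u 2 + v 2) := by rw [hb1]; field_simp
  unfold W
  simp only [map_add, map_mul, map_sub, eval_X, eval_C]
  rw [c0, c1, c2, f0, f1]
  linear_combination (-((1 + x 0 ^ 2 + x 1 ^ 2 + x 2 ^ 2) * (u 2 + v 2) / 2)) * h2

/-- the three fields of a basis cannot all be tangent to an irreducible surface containing a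
line -/
theorem not_both {φ : MvPolynomial (Fin 3) ℝ} (hφ : Irreducible φ) {l : Ln} (hl : On φ l)
    {u u' : Fin 3 → ℝ} (hne : crs u u' ≠ 0) (h1 : φ ∣ W u φ) (h2 : φ ∣ W u' φ) : False := by
  have hpos := totalDegree_pos_of_On hφ hl
  set z := crs u u' with hz
  have z0 : z 0 = u 1 * u' 2 - u 2 * u' 1 := rfl
  have z1 : z 1 = u 2 * u' 0 - u 0 * u' 2 := rfl
  have z2 : z 2 = u 0 * u' 1 - u 1 * u' 0 := rfl
  have h3 : φ ∣ W z φ := by
    obtain ⟨A, hA⟩ := h1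
    obtain ⟨B, hB⟩ := h2
    have hc := W_comm u u' φ
    rw [hA, hB, W_mul, W_mul, hA, hB, ← hz] at hc
    have e : W z φ = C (1/2 : ℝ) * ((2 : MvPolynomial (Fin 3) ℝ) * W z φ) := by
      have h2 : (2 : MvPolynomial (Fin 3) ℝ) = C (2 : ℝ) := rfl
      rw [h2, ← mul_assoc, ← C_mul]
      norm_num
    rw [e, ← hc]
    refine ⟨C (1/2 : ℝ) * (W u B - W u' A), ?_⟩
    ring
  -- the fields `W e` for all `e`
  set N : ℝ := z 0 ^ 2 + z 1 ^ 2 + z 2 ^ 2 with hN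
  have hN0 : N ≠ 0 := by
    intro h
    apply hne
    have e0 : z 0 ^ 2 = 0 := by nlinarith [sq_nonneg (z 0), sq_nonneg (z 1), sq_nonneg (z 2)]
    have e1 : z 1 ^ 2 = 0 := by nlinarith [sq_nonneg (z 0), sq_nonneg (z 1), sq_nonneg (z 2)]
    have e2 : z 2 ^ 2 = 0 := by nlinarith [sq_nonneg (z 0), sq_nonneg (z 1), sq_nonneg (z 2)]
    funext i
    fin_cases i
    · exact pow_eq_zero_iff (two_ne_zero) |>.1 e0
    · exact pow_eq_zero_iff (two_ne_zero) |>.1 e1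
    · exact pow_eq_zero_iff (two_ne_zero) |>.1 e2
  -- `e = ((u' × z)·e u + (z × u)·e u' + z·e z) / N`
  have hall : ∀ e : Fin 3 → ℝ, φ ∣ W e φ := by
    intro e
    set a : ℝ := ((u' 1 * z 2 - u' 2 * z 1) * e 0 + (u' 2 * z 0 - u' 0 * z 2) * e 1 +
      (u' 0 * z 1 - u' 1 * z 0) * e 2) / N with ha
    set b : ℝ := ((z 1 * u 2 - z 2 * u 1) * e 0 + (z 2 * u 0 - z 0 * u 2) * e 1 +
      (z 0 * u 1 - z 1 * u 0) * e 2) / N with hb
    set c : ℝ := (z 0 * e 0 + z 1 * e 1 + z 2 * e 2) / N with hc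
    have k0 : e 0 = a * u 0 + b * u' 0 + c * z 0 := by
      rw [ha, hb, hc]
      field_simp
      rw [hN, z0, z1, z2]
      ring
    have k1 : e 1 = a * u 1 + b * u' 1 + c * z 1 := by
      rw [ha, hb, hc]
      field_simp
      rw [hN, z0, z1, z2]
      ring
    have k2 : e 2 = a * u 2 + b * u' 2 + c * z 2 := by
      rw [ha, hb, hc]
      field_simp
      rw [hN, z0, z1, z2]
      ring
    have hW : W e φ = C a * W u φ + C b * W u' φ + C c * W z φ := by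
      unfold W
      rw [k0, k1, k2]
      simp only [C_add, C_mul]
      ring
    rw [hW]
    exact dvd_add (dvd_add (Dvd.dvd.mul_left h1 _) (Dvd.dvd.mul_left h2 _))
      (Dvd.dvd.mul_left h3 _)
  have hp := hφ.prime
  have hnd1 : ¬ φ ∣ (1 + X 0 ^ 2 + X 1 ^ 2 + X 2 ^ 2) := by
    rintro ⟨g, hg⟩
    have := congrArg (eval (gpt l 0)) hg
    rw [map_mul, hl 0, zero_mul] at this
    simp only [map_add, map_one, map_pow, eval_X] at this
    nlinarith [sq_nonneg (gpt l 0 0), sq_nonneg (gpt l 0 1), sq_nonneg (gpt l 0 2)]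
  have w0 := hall ![1, 0, 0]
  have w1 := hall ![0, 1, 0]
  have w2 := hall ![0, 0, 1]
  have g0 : φ ∣ (1 + X 0 ^ 2 + X 1 ^ 2 + X 2 ^ 2) * pderiv 0 φ := by
    have : (1 + X 0 ^ 2 + X 1 ^ 2 + X 2 ^ 2) * pderiv 0 φ =
        W ![1, 0, 0] φ - X 2 * W ![0, 1, 0] φ + X 1 * W ![0, 0, 1] φ := by
      unfold W
      simp only [Matrix.cons_val_zero, Matrix.cons_val_one, Matrix.cons_val, C_0, C_1]
      ring
    rw [this]
    exact dvd_add (dvd_sub w0 (Dvd.dvd.mul_left w1 _)) (Dvd.dvd.mul_left w2 _)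
  have g1 : φ ∣ (1 + X 0 ^ 2 + X 1 ^ 2 + X 2 ^ 2) * pderiv 1 φ := by
    have : (1 + X 0 ^ 2 + X 1 ^ 2 + X 2 ^ 2) * pderiv 1 φ =
        W ![0, 1, 0] φ - X 0 * W ![0, 0, 1] φ + X 2 * W ![1, 0, 0] φ := by
      unfold W
      simp only [Matrix.cons_val_zero, Matrix.cons_val_one, Matrix.cons_val, C_0, C_1]
      ring
    rw [this]
    exact dvd_add (dvd_sub w1 (Dvd.dvd.mul_left w2 _)) (Dvd.dvd.mul_left w0 _)
  have g2 : φ ∣ (1 + X 0 ^ 2 + X 1 ^ 2 + X 2 ^ 2) * pderiv 2 φ := by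
    have : (1 + X 0 ^ 2 + X 1 ^ 2 + X 2 ^ 2) * pderiv 2 φ =
        W ![0, 0, 1] φ - X 1 * W ![1, 0, 0] φ + X 0 * W ![0, 1, 0] φ := by
      unfold W
      simp only [Matrix.cons_val_zero, Matrix.cons_val_one, Matrix.cons_val, C_0, C_1]
      ring
    rw [this]
    exact dvd_add (dvd_sub w2 (Dvd.dvd.mul_left w0 _)) (Dvd.dvd.mul_left w1 _)
  have q0 := pderiv_eq_zero_of_dvd hpos 0 ((hp.dvd_or_dvd g0).resolve_left hnd1)
  have q1 := pderiv_eq_zero_of_dvd hpos 1 ((hp.dvd_or_dvd g1).resolve_left hnd1)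
  exact hφ.ne_zero (eq_zero_of_pderiv q0 q1 hl)

/-- lines of one source direction -/
theorem lines_of_dir {φ : MvPolynomial (Fin 3) ℝ} (hφ : Irreducible φ) (u : Fin 3 → ℝ)
    (hu : ¬ φ ∣ W u φ) (S : Finset Ln)
    (hS : ∀ l ∈ S, ∃ v, Adm u v ∧ l = fl u v ∧ On φ l) :
    #S ≤ φ.totalDegree * (φ.totalDegree + 1) := by
  rcases S.eq_empty_or_nonempty with h0 | ⟨l0, hl0⟩
  · rw [h0]; simp
  obtain ⟨v0, -, -, hon⟩ := hS l0 hl0
  have hpos := totalDegree_pos_of_On hφ hon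
  refine (graph_bezout hφ hu S (fun l hl => ?_) (fun l hl => ?_)).trans
    (Nat.mul_le_mul_left _ (totalDegree_W_le u φ hpos))
  · obtain ⟨v, -, -, h⟩ := hS l hl
    exact h
  · obtain ⟨v, h1, h2, h⟩ := hS l hl
    rw [h2] at h ⊢
    exact On_W h1 h

theorem eq_or_neg_of_crs {u u' : Fin 3 → ℝ} (h : crs u u' = 0)
    (hn : u 0 ^ 2 + u 1 ^ 2 + u 2 ^ 2 = u' 0 ^ 2 + u' 1 ^ 2 + u' 2 ^ 2) : u' = u ∨ u' = -u := by
  have h0 : u 1 * u' 2 - u 2 * u' 1 = 0 := congrFun h 0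
  have h1 : u 2 * u' 0 - u 0 * u' 2 = 0 := congrFun h 1
  have h2 : u 0 * u' 1 - u 1 * u' 0 = 0 := congrFun h 2
  -- `|u' - u|² |u' + u|² = (|u|² - |u'|²)² + 4 |u × u'|²`
  have key : ((u' 0 - u 0) ^ 2 + (u' 1 - u 1) ^ 2 + (u' 2 - u 2) ^ 2) *
      ((u' 0 + u 0) ^ 2 + (u' 1 + u 1) ^ 2 + (u' 2 + u 2) ^ 2) = 0 := by
    linear_combination (u 0 ^ 2 + u 1 ^ 2 + u 2 ^ 2 - (u' 0 ^ 2 + u' 1 ^ 2 + u' 2 ^ 2)) * hn +
      4 * (u 1 * u' 2 - u 2 * u' 1) * h0 + 4 * (u 2 * u' 0 - u 0 * u' 2) * h1 +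
      4 * (u 0 * u' 1 - u 1 * u' 0) * h2
  have aux : ∀ a b c : ℝ, a ^ 2 + b ^ 2 + c ^ 2 = 0 → a = 0 ∧ b = 0 ∧ c = 0 := by
    intro a b c h
    refine ⟨?_, ?_, ?_⟩ <;> apply pow_eq_zero_iff (two_ne_zero) |>.1 <;>
      nlinarith [sq_nonneg a, sq_nonneg b, sq_nonneg c]
  rcases mul_eq_zero.1 key with h | h
  · left
    obtain ⟨e0, e1, e2⟩ := aux _ _ _ h
    funext i
    fin_cases i
    · show u' 0 = u 0
      linarith
    · show u' 1 = u 1
      linarith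
    · show u' 2 = u 2
      linarith
  · right
    obtain ⟨e0, e1, e2⟩ := aux _ _ _ h
    funext i
    fin_cases i
    · show u' 0 = -u 0
      linarith
    · show u' 1 = -u 1
      linarith
    · show u' 2 = -u 2
      linarith

/-- **The vector field lemma.** An irreducible polynomial `φ` vanishes on at most
`deg φ (deg φ + 1) #U + 2 #V` of the lines `fl u v`, `u ∈ U`, `v ∈ V`. -/
theorem vb {φ : MvPolynomial (Fin 3) ℝ} (hφ : Irreducible φ) (U V : Finset (Fin 3 → ℝ))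
    (S : Finset Ln)
    (hS : ∀ l ∈ S, ∃ u ∈ U, ∃ v ∈ V, Adm u v ∧ l = fl u v ∧ On φ l) :
    #S ≤ φ.totalDegree * (φ.totalDegree + 1) * #U + 2 * #V := by
  classical
  choose! fu hfu using hS
  choose! fv hfv using fun l hl => (hfu l hl).2
  set A := S.filter (fun l => ¬ φ ∣ W (fu l) φ) with hA
  set B := S.filter (fun l => ¬ ¬ φ ∣ W (fu l) φ) with hB
  have hAB : #S = #A + #B := by
    rw [hA, hB]
    exact (Finset.card_filter_add_card_filter_not _).symm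
  have hcA : #A ≤ φ.totalDegree * (φ.totalDegree + 1) * #U := by
    refine Finset.card_le_mul_card_image_of_maps_to (f := fu) (fun l hl => ?_) _ (fun u hu => ?_)
    · exact (hfu l (Finset.mem_filter.1 hl).1).1
    · by_cases hd : φ ∣ W u φ
      · have : (A.filter (fun l => fu l = u)) = ∅ := by
          apply Finset.filter_eq_empty_iff.2
          intro l hl h
          apply (Finset.mem_filter.1 hl).2
          rw [h]
          exact hd
        rw [this]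
        simp
      · apply lines_of_dir hφ u hd
        intro l hl
        obtain ⟨hl1, hl2⟩ := Finset.mem_filter.1 hl
        have h1 := hfv l (Finset.mem_filter.1 hl1).1
        rw [hl2] at h1
        exact ⟨fv l, h1.2.1, h1.2.2.1, h1.2.2.2⟩
  have hcB : #B ≤ 2 * #V := by
    refine Finset.card_le_mul_card_image_of_maps_to (f := fv) (fun l hl => ?_) _ (fun v hv => ?_)
    · exact (hfv l (Finset.mem_filter.1 hl).1).1
    · rcases (B.filter (fun l => fv l = v)).eq_empty_or_nonempty with h0 | ⟨l0, hl0⟩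
      · rw [h0]; simp
      obtain ⟨h1, h2⟩ := Finset.mem_filter.1 hl0
      obtain ⟨h3, h4⟩ := Finset.mem_filter.1 h1
      have h5 := hfv l0 h3
      have hsub : (B.filter (fun l => fv l = v)) ⊆ {fl (fu l0) v, fl (-fu l0) v} := by
        intro l hl
        obtain ⟨g1, g2⟩ := Finset.mem_filter.1 hl
        obtain ⟨g3, g4⟩ := Finset.mem_filter.1 g1
        have g5 := hfv l g3
        have hc : crs (fu l0) (fu l) = 0 := by
          by_contra hne
          exact not_both hφ h5.2.2.2 hne (not_not.1 h4) (not_not.1 g4)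
        rw [h2] at h5
        rw [g2] at g5
        have hn : (fu l0) 0 ^ 2 + (fu l0) 1 ^ 2 + (fu l0) 2 ^ 2 =
            (fu l) 0 ^ 2 + (fu l) 1 ^ 2 + (fu l) 2 ^ 2 := by
          rw [h5.2.1.1, g5.2.1.1]
        rw [Finset.mem_insert, Finset.mem_singleton, g5.2.2.1]
        rcases eq_or_neg_of_crs hc hn with h | h
        · left; rw [h]
        · right; rw [h]
      exact (Finset.card_le_card hsub).trans Finset.card_le_two
  omega

/-- inner product -/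
def dt (u v : Fin 3 → ℝ) : ℝ := u 0 * v 0 + u 1 * v 1 + u 2 * v 2

/-- two fibre lines which are not parallel meet iff the inner products agree -/
theorem fl_meet {u v u' v' : Fin 3 → ℝ} (h : Adm u v) (h' : Adm u' v')
    (hne : crs (u + v) (u' + v') ≠ 0) :
    (∃ w, gpt (fl u v) w = gpt (fl u' v') w) ↔ dt u u' = dt v v' := by
  constructor
  · rintro ⟨w, hw⟩
    obtain ⟨a0, a1, a2⟩ := (mem_fl_iff h _).1 ⟨w, rfl⟩
    obtain ⟨b0, b1, b2⟩ := (mem_fl_iff h' _).1 ⟨w, hw.symm⟩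
    set x := gpt (fl u v) w with hx
    unfold dt
    linear_combination (-1/2) * ((u' 0 + v' 0) * a0 + (u' 1 + v' 1) * a1 + (u' 2 + v' 2) * a2 +
      (u 0 + v 0) * b0 + (u 1 + v 1) * b1 + (u 2 + v 2) * b2)
  · intro hd
    set s := u + v with hs
    set s' := u' + v' with hs'
    have s0 : s 0 = u 0 + v 0 := rfl
    have s1 : s 1 = u 1 + v 1 := rfl
    have s2 : s 2 = u 2 + v 2 := rfl
    have t0 : s' 0 = u' 0 + v' 0 := rfl
    have t1 : s' 1 = u' 1 + v' 1 := rfl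
    have t2 : s' 2 = u' 2 + v' 2 := rfl
    set z := crs s s' with hz
    have z0 : z 0 = s 1 * s' 2 - s 2 * s' 1 := rfl
    have z1 : z 1 = s 2 * s' 0 - s 0 * s' 2 := rfl
    have z2 : z 2 = s 0 * s' 1 - s 1 * s' 0 := rfl
    set N : ℝ := z 0 ^ 2 + z 1 ^ 2 + z 2 ^ 2 with hN
    have hN0 : N ≠ 0 := by
      intro h
      apply hne
      have e0 : z 0 ^ 2 = 0 := by nlinarith [sq_nonneg (z 0), sq_nonneg (z 1), sq_nonneg (z 2)]
      have e1 : z 1 ^ 2 = 0 := by nlinarith [sq_nonneg (z 0), sq_nonneg (z 1), sq_nonneg (z 2)]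
      have e2 : z 2 ^ 2 = 0 := by nlinarith [sq_nonneg (z 0), sq_nonneg (z 1), sq_nonneg (z 2)]
      funext i
      fin_cases i
      · exact pow_eq_zero_iff (two_ne_zero) |>.1 e0
      · exact pow_eq_zero_iff (two_ne_zero) |>.1 e1
      · exact pow_eq_zero_iff (two_ne_zero) |>.1 e2
    -- the meeting point
    set p : ℝ := (v 0 - u 0) * s' 0 + (v 1 - u 1) * s' 1 + (v 2 - u 2) * s' 2 with hp
    set q : ℝ := (v' 0 - u' 0) * z 0 + (v' 1 - u' 1) * z 1 + (v' 2 - u' 2) * z 2 with hq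
    set r : ℝ := (v 0 - u 0) * z 0 + (v 1 - u 1) * z 1 + (v 2 - u 2) * z 2 with hr
    set x : Fin 3 → ℝ := fun i => (p * z i + q * s i - r * s' i) / N with hx
    have o1 : (v 0 - u 0) * s 0 + (v 1 - u 1) * s 1 + (v 2 - u 2) * s 2 = 0 := by
      rw [s0, s1, s2]; linear_combination -h.1
    have o2 : (v' 0 - u' 0) * s' 0 + (v' 1 - u' 1) * s' 1 + (v' 2 - u' 2) * s' 2 = 0 := by
      rw [t0, t1, t2]; linear_combination -h'.1
    have o3 : (v 0 - u 0) * s' 0 + (v 1 - u 1) * s' 1 + (v 2 - u 2) * s' 2 +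
        ((v' 0 - u' 0) * s 0 + (v' 1 - u' 1) * s 1 + (v' 2 - u' 2) * s 2) = 0 := by
      unfold dt at hd
      rw [s0, s1, s2, t0, t1, t2]; linear_combination (-2) * hd
    have x0 : x 0 * N = p * z 0 + q * s 0 - r * s' 0 := by
      simp only [hx]; field_simp
    have x1 : x 1 * N = p * z 1 + q * s 1 - r * s' 1 := by
      simp only [hx]; field_simp
    have x2 : x 2 * N = p * z 2 + q * s 2 - r * s' 2 := by
      simp only [hx]; field_simp
    clear_value x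
    have m1 : ∃ w, gpt (fl u v) w = x := by
      rw [mem_fl_iff h, ← s0, ← s1, ← s2]
      refine ⟨mul_right_cancel₀ hN0 ?_, mul_right_cancel₀ hN0 ?_, mul_right_cancel₀ hN0 ?_⟩
      · have e : (x 1 * s 2 - x 2 * s 1) * N = (x 1 * N) * s 2 - (x 2 * N) * s 1 := by ring
        rw [e, x1, x2, hN, hp, hq, hr, z0, z1, z2]
        linear_combination (s' 1 * (s 0 * s' 1 - s 1 * s' 0) -
          s' 2 * (s 2 * s' 0 - s 0 * s' 2)) * o1
      · have e : (x 2 * s 0 - x 0 * s 2) * N = (x 2 * N) * s 0 - (x 0 * N) * s 2 := by ring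
        rw [e, x0, x2, hN, hp, hq, hr, z0, z1, z2]
        linear_combination (s' 2 * (s 1 * s' 2 - s 2 * s' 1) -
          s' 0 * (s 0 * s' 1 - s 1 * s' 0)) * o1
      · have e : (x 0 * s 1 - x 1 * s 0) * N = (x 0 * N) * s 1 - (x 1 * N) * s 0 := by ring
        rw [e, x0, x1, hN, hp, hq, hr, z0, z1, z2]
        linear_combination (s' 0 * (s 2 * s' 0 - s 0 * s' 2) -
          s' 1 * (s 1 * s' 2 - s 2 * s' 1)) * o1
    have m2 : ∃ w, gpt (fl u' v') w = x := by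
      rw [mem_fl_iff h', ← t0, ← t1, ← t2]
      refine ⟨mul_right_cancel₀ hN0 ?_, mul_right_cancel₀ hN0 ?_, mul_right_cancel₀ hN0 ?_⟩
      · have e : (x 1 * s' 2 - x 2 * s' 1) * N = (x 1 * N) * s' 2 - (x 2 * N) * s' 1 := by ring
        rw [e, x1, x2, hN, hp, hq, hr, z0, z1, z2]
        linear_combination (s' 1 * (s 0 * s' 1 - s 1 * s' 0) -
          s' 2 * (s 2 * s' 0 - s 0 * s' 2)) * o3 +
          ((s 2 * s' 0 - s 0 * s' 2) * s 2 - (s 0 * s' 1 - s 1 * s' 0) * s 1) * o2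
      · have e : (x 2 * s' 0 - x 0 * s' 2) * N = (x 2 * N) * s' 0 - (x 0 * N) * s' 2 := by ring
        rw [e, x0, x2, hN, hp, hq, hr, z0, z1, z2]
        linear_combination (s' 2 * (s 1 * s' 2 - s 2 * s' 1) -
          s' 0 * (s 0 * s' 1 - s 1 * s' 0)) * o3 +
          ((s 0 * s' 1 - s 1 * s' 0) * s 0 - (s 1 * s' 2 - s 2 * s' 1) * s 2) * o2
      · have e : (x 0 * s' 1 - x 1 * s' 0) * N = (x 0 * N) * s' 1 - (x 1 * N) * s' 0 := by ring
        rw [e, x0, x1, hN, hp, hq, hr, z0, z1, z2]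
        linear_combination (s' 0 * (s 2 * s' 0 - s 0 * s' 2) -
          s' 1 * (s 1 * s' 2 - s 2 * s' 1)) * o3 +
          ((s 1 * s' 2 - s 2 * s' 1) * s 1 - (s 2 * s' 0 - s 0 * s' 2) * s 0) * o2
    obtain ⟨w, hw⟩ := m1
    obtain ⟨w', hw'⟩ := m2
    have e1 : w = x 2 := by rw [← hw]; rfl
    have e2 : w' = x 2 := by rw [← hw']; rfl
    exact ⟨w, by rw [hw, e1, ← e2, hw']⟩

end Vale.Agent.P054.Y.G
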