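import Mathlib
import Vale.Agent.P054.Y.G.VB

/-! Generic rotation: after a rotation of the targets all fibre lines are graph lines of the Cayley
chart and no two of them meet at infinity. -/

namespace Vale.Agent.P054.Y.G

open Finset MvPolynomial Matrix
open Vale.Agent.P041.SE

/-- The matrix of the (unnormalised) quaternion `q`. -/
def qm (q : Fin 4 → ℝ) : Matrix (Fin 3) (Fin 3) ℝ :=
  !![q 0 ^ 2 + q 1 ^ 2 - q 2 ^ 2 - q 3 ^ 2, 2 * (q 1 * q 2 - q 0 * q 3), 2 * (q 1 * q 3 + q 0 * q 2);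
    2 * (q 1 * q 2 + q 0 * q 3), q 0 ^ 2 - q 1 ^ 2 + q 2 ^ 2 - q 3 ^ 2, 2 * (q 2 * q 3 - q 0 * q 1);
    2 * (q 1 * q 3 - q 0 * q 2), 2 * (q 2 * q 3 + q 0 * q 1), q 0 ^ 2 - q 1 ^ 2 - q 2 ^ 2 + q 3 ^ 2]

/-- norm of the quaternion -/
def qn (q : Fin 4 → ℝ) : ℝ := q 0 ^ 2 + q 1 ^ 2 + q 2 ^ 2 + q 3 ^ 2

theorem qm_orth (q : Fin 4 → ℝ) : (qm q)ᵀ * qm q = (qn q ^ 2) • (1 : Matrix (Fin 3) (Fin 3) ℝ) := by
  ext i j
  fin_cases i <;> fin_cases j <;>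
    simp [qm, qn, Matrix.mul_apply, Fin.sum_univ_three, Matrix.smul_apply] <;> ring

theorem qm_det (q : Fin 4 → ℝ) : (qm q).det = qn q ^ 3 := by
  simp [qm, qn, Matrix.det_fin_three]
  ring

section gen
variable {R : Type} [CommRing R]

/-- components of `|q|² x + M(q) y` over a commutative ring -/
def g0 (q : Fin 4 → R) (x y : Fin 3 → R) : R :=
  (q 0 ^ 2 + q 1 ^ 2 + q 2 ^ 2 + q 3 ^ 2) * x 0 +
    ((q 0 ^ 2 + q 1 ^ 2 - q 2 ^ 2 - q 3 ^ 2) * y 0 + 2 * (q 1 * q 2 - q 0 * q 3) * y 1 +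
      2 * (q 1 * q 3 + q 0 * q 2) * y 2)

def g1 (q : Fin 4 → R) (x y : Fin 3 → R) : R :=
  (q 0 ^ 2 + q 1 ^ 2 + q 2 ^ 2 + q 3 ^ 2) * x 1 +
    (2 * (q 1 * q 2 + q 0 * q 3) * y 0 + (q 0 ^ 2 - q 1 ^ 2 + q 2 ^ 2 - q 3 ^ 2) * y 1 +
      2 * (q 2 * q 3 - q 0 * q 1) * y 2)

def g2 (q : Fin 4 → R) (x y : Fin 3 → R) : R :=
  (q 0 ^ 2 + q 1 ^ 2 + q 2 ^ 2 + q 3 ^ 2) * x 2 +
    (2 * (q 1 * q 3 - q 0 * q 2) * y 0 + 2 * (q 2 * q 3 + q 0 * q 1) * y 1 +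
      (q 0 ^ 2 - q 1 ^ 2 - q 2 ^ 2 + q 3 ^ 2) * y 2)

/-- squared length of the cross product -/
def cc (q : Fin 4 → R) (x y x' y' : Fin 3 → R) : R :=
  (g1 q x y * g2 q x' y' - g2 q x y * g1 q x' y') ^ 2 +
    (g2 q x y * g0 q x' y' - g0 q x y * g2 q x' y') ^ 2 +
    (g0 q x y * g1 q x' y' - g1 q x y * g0 q x' y') ^ 2

end gen

theorem eval_g2 (q : Fin 4 → ℝ) (x y : Fin 3 → ℝ) :
    eval q (g2 (fun i => (X i : MvPolynomial (Fin 4) ℝ)) (fun i => C (x i)) (fun i => C (y i))) =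
      g2 q x y := by
  unfold g2
  simp only [map_add, map_mul, map_sub, map_pow, eval_X, eval_C, map_ofNat]

theorem eval_cc (q : Fin 4 → ℝ) (x y x' y' : Fin 3 → ℝ) :
    eval q (cc (fun i => (X i : MvPolynomial (Fin 4) ℝ)) (fun i => C (x i)) (fun i => C (y i))
      (fun i => C (x' i)) (fun i => C (y' i))) = cc q x y x' y' := by
  unfold cc g0 g1 g2
  simp only [map_add, map_mul, map_sub, map_pow, eval_X, eval_C, map_ofNat]

theorem exists_g2 {x y : Fin 3 → ℝ} (hy : y ≠ 0) : ∃ q, g2 q x y ≠ 0 := by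
  by_contra hcon
  push Not at hcon
  have h1 := hcon ![1, 0, 0, 0]
  have h2 := hcon ![0, 1, 0, 0]
  have h3 := hcon ![1, 1, 0, 0]
  have h4 := hcon ![1, -1, 0, 0]
  have h5 := hcon ![1, 0, 1, 0]
  have h6 := hcon ![1, 0, -1, 0]
  simp only [g2, Matrix.cons_val_zero, Matrix.cons_val_one, Matrix.cons_val] at h1 h2 h3 h4 h5 h6
  apply hy
  funext i
  fin_cases i
  · show y 0 = 0
    linarith
  · show y 1 = 0
    linarith
  · show y 2 = 0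
    linarith

theorem exists_cc {x x' : Fin 3 → ℝ} (y y' : Fin 3 → ℝ) (hx : crs x x' ≠ 0) :
    ∃ q, cc q x y x' y' ≠ 0 := by
  by_contra hcon
  push Not at hcon
  have aux : ∀ a b c : ℝ, a ^ 2 + b ^ 2 + c ^ 2 = 0 → a = 0 ∧ b = 0 ∧ c = 0 := by
    intro a b c h
    refine ⟨?_, ?_, ?_⟩ <;> apply pow_eq_zero_iff (two_ne_zero) |>.1 <;>
      nlinarith [sq_nonneg a, sq_nonneg b, sq_nonneg c]
  obtain ⟨a0, a1, a2⟩ := aux _ _ _ (hcon ![1, 0, 0, 0])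
  obtain ⟨b0, b1, b2⟩ := aux _ _ _ (hcon ![0, 1, 0, 0])
  obtain ⟨c0, c1, c2⟩ := aux _ _ _ (hcon ![0, 0, 1, 0])
  obtain ⟨d0, d1, d2⟩ := aux _ _ _ (hcon ![0, 0, 0, 1])
  simp only [g0, g1, g2, Matrix.cons_val_zero, Matrix.cons_val_one, Matrix.cons_val]
    at a0 a1 a2 b0 b1 b2 c0 c1 c2 d0 d1 d2
  apply hx
  funext i
  fin_cases i
  · show x 1 * x' 2 - x 2 * x' 1 = 0
    linear_combination (1/4) * (a0 + b0 + c0 + d0)
  · show x 2 * x' 0 - x 0 * x' 2 = 0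
    linear_combination (1/4) * (a1 + b1 + c1 + d1)
  · show x 0 * x' 1 - x 1 * x' 0 = 0
    linear_combination (1/4) * (a2 + b2 + c2 + d2)

theorem orth_norm {Q : Matrix (Fin 3) (Fin 3) ℝ} (hQ : Qᵀ * Q = 1) (x y : Fin 3 → ℝ) :
    dt (Q.mulVec x) (Q.mulVec y) = dt x y := by
  have e : ∀ a b : Fin 3 → ℝ, dt a b = a ⬝ᵥ b := by
    intro a b
    simp [dt, dotProduct, Fin.sum_univ_three]
  rw [e, e, Matrix.dotProduct_mulVec, Matrix.vecMul_mulVec, hQ, Matrix.vecMul_one]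

/-- **Generic rotation.** -/
theorem exists_rot (T : Finset ((Fin 3 → ℝ) × (Fin 3 → ℝ)))
    (hT : ∀ p ∈ T, p.1 0 ^ 2 + p.1 1 ^ 2 + p.1 2 ^ 2 = p.2 0 ^ 2 + p.2 1 ^ 2 + p.2 2 ^ 2 ∧
      p.1 ≠ 0) :
    ∃ Q : Matrix (Fin 3) (Fin 3) ℝ, Qᵀ * Q = 1 ∧ Q.det = 1 ∧
      (∀ p ∈ T, Adm p.1 (Q.mulVec p.2)) ∧
      ∀ p ∈ T, ∀ p' ∈ T, crs p.1 p'.1 ≠ 0 →
        crs (p.1 + Q.mulVec p.2) (p'.1 + Q.mulVec p'.2) ≠ 0 := by
  classical
  set f1 : ((Fin 3 → ℝ) × (Fin 3 → ℝ)) → MvPolynomial (Fin 4) ℝ := fun p =>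
    g2 (fun i => (X i : MvPolynomial (Fin 4) ℝ)) (fun i => C (p.1 i)) (fun i => C (p.2 i)) with hf1
  set f2 : ((Fin 3 → ℝ) × (Fin 3 → ℝ)) × ((Fin 3 → ℝ) × (Fin 3 → ℝ)) → MvPolynomial (Fin 4) ℝ :=
    fun r => cc (fun i => (X i : MvPolynomial (Fin 4) ℝ)) (fun i => C (r.1.1 i))
      (fun i => C (r.1.2 i)) (fun i => C (r.2.1 i)) (fun i => C (r.2.2 i)) with hf2
  set T2 := (T ×ˢ T).filter (fun r => crs r.1.1 r.2.1 ≠ 0) with hT2
  have hne : (∏ p ∈ T, f1 p) * (∏ r ∈ T2, f2 r) *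
      (X 0 ^ 2 + X 1 ^ 2 + X 2 ^ 2 + X 3 ^ 2 : MvPolynomial (Fin 4) ℝ) ≠ 0 := by
    refine mul_ne_zero (mul_ne_zero (Finset.prod_ne_zero_iff.2 ?_)
      (Finset.prod_ne_zero_iff.2 ?_)) ?_
    · intro p hp h0
      have hy : p.2 ≠ 0 := by
        intro h
        apply (hT p hp).2
        have h1 := (hT p hp).1
        rw [h] at h1
        simp only [Pi.zero_apply] at h1
        funext i
        fin_cases i
        · show p.1 0 = 0
          nlinarith [sq_nonneg (p.1 0), sq_nonneg (p.1 1), sq_nonneg (p.1 2)]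
        · show p.1 1 = 0
          nlinarith [sq_nonneg (p.1 0), sq_nonneg (p.1 1), sq_nonneg (p.1 2)]
        · show p.1 2 = 0
          nlinarith [sq_nonneg (p.1 0), sq_nonneg (p.1 1), sq_nonneg (p.1 2)]
      obtain ⟨q, hq⟩ := exists_g2 (x := p.1) hy
      apply hq
      rw [← eval_g2]
      have := congrArg (eval q) h0
      rw [map_zero] at this
      exact this
    · intro r hr h0
      obtain ⟨q, hq⟩ := exists_cc r.1.2 r.2.2 (Finset.mem_filter.1 hr).2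
      apply hq
      rw [← eval_cc]
      have := congrArg (eval q) h0
      rw [map_zero] at this
      exact this
    · intro h0
      have := congrArg (eval ![(1:ℝ), 0, 0, 0]) h0
      simp at this
  obtain ⟨q, hq⟩ : ∃ q : Fin 4 → ℝ, eval q ((∏ p ∈ T, f1 p) * (∏ r ∈ T2, f2 r) *
      (X 0 ^ 2 + X 1 ^ 2 + X 2 ^ 2 + X 3 ^ 2 : MvPolynomial (Fin 4) ℝ)) ≠ 0 := by
    by_contra hcon
    push Not at hcon
    exact hne (MvPolynomial.funext (fun q => by rw [hcon q, map_zero]))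
  rw [map_mul, map_mul, map_prod, map_prod] at hq
  have hq1 := left_ne_zero_of_mul (left_ne_zero_of_mul hq)
  have hq2 := right_ne_zero_of_mul (left_ne_zero_of_mul hq)
  have hq3 := right_ne_zero_of_mul hq
  rw [Finset.prod_ne_zero_iff] at hq1 hq2
  have hn : qn q ≠ 0 := by
    intro h
    apply hq3
    simp only [map_add, map_pow, eval_X]
    exact h
  set Q : Matrix (Fin 3) (Fin 3) ℝ := (qn q)⁻¹ • qm q with hQ
  have hQQ : Qᵀ * Q = 1 := by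
    rw [hQ, Matrix.transpose_smul, Matrix.smul_mul, Matrix.mul_smul, qm_orth, smul_smul, smul_smul]
    have : (qn q)⁻¹ * (qn q)⁻¹ * qn q ^ 2 = 1 := by field_simp
    rw [this, one_smul]
  have hdet : Q.det = 1 := by
    rw [hQ, Matrix.det_smul, qm_det, Fintype.card_fin]
    field_simp
  have k0 : ∀ x y : Fin 3 → ℝ, (x + Q.mulVec y) 0 = (qn q)⁻¹ * g0 q x y := by
    intro x y
    rw [hQ, Matrix.smul_mulVec]
    simp only [Pi.add_apply, Pi.smul_apply, smul_eq_mul, Matrix.mulVec, dotProduct,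
      Fin.sum_univ_three, qm, g0]
    have : (q 0 ^ 2 + q 1 ^ 2 + q 2 ^ 2 + q 3 ^ 2) = qn q := rfl
    rw [this]
    simp
    field_simp
  have k1 : ∀ x y : Fin 3 → ℝ, (x + Q.mulVec y) 1 = (qn q)⁻¹ * g1 q x y := by
    intro x y
    rw [hQ, Matrix.smul_mulVec]
    simp only [Pi.add_apply, Pi.smul_apply, smul_eq_mul, Matrix.mulVec, dotProduct,
      Fin.sum_univ_three, qm, g1]
    have : (q 0 ^ 2 + q 1 ^ 2 + q 2 ^ 2 + q 3 ^ 2) = qn q := rfl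
    rw [this]
    simp
    field_simp
  have k2 : ∀ x y : Fin 3 → ℝ, (x + Q.mulVec y) 2 = (qn q)⁻¹ * g2 q x y := by
    intro x y
    rw [hQ, Matrix.smul_mulVec]
    simp only [Pi.add_apply, Pi.smul_apply, smul_eq_mul, Matrix.mulVec, dotProduct,
      Fin.sum_univ_three, qm, g2]
    have : (q 0 ^ 2 + q 1 ^ 2 + q 2 ^ 2 + q 3 ^ 2) = qn q := rfl
    rw [this]
    simp
    field_simp
  refine ⟨Q, hQQ, hdet, fun p hp => ⟨?_, ?_⟩, fun p hp p' hp' hc h0 => ?_⟩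
  · have h1 := orth_norm hQQ p.2 p.2
    unfold dt at h1
    rw [(hT p hp).1]
    linear_combination -h1
  · have h1 : p.1 2 + (Q.mulVec p.2) 2 = (qn q)⁻¹ * g2 q p.1 p.2 := k2 _ _
    rw [h1]
    refine mul_ne_zero (inv_ne_zero hn) ?_
    have := hq1 p hp
    rw [hf1] at this
    rw [← eval_g2]
    exact this
  · have hm : (p, p') ∈ T2 := Finset.mem_filter.2 ⟨Finset.mem_product.2 ⟨hp, hp'⟩, hc⟩
    apply hq2 _ hm
    rw [hf2]
    have e0 := congrFun h0 0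
    have e1 := congrFun h0 1
    have e2 := congrFun h0 2
    simp only [crs, Matrix.cons_val_zero, Matrix.cons_val_one, Matrix.cons_val, Pi.zero_apply,
      k0, k1, k2] at e0 e1 e2
    show eval q (cc _ _ _ _ _) = 0
    rw [eval_cc]
    unfold cc
    have f0 : g1 q p.1 p.2 * g2 q p'.1 p'.2 - g2 q p.1 p.2 * g1 q p'.1 p'.2 = 0 := by
      have : (qn q)⁻¹ ≠ 0 := inv_ne_zero hn
      apply mul_left_cancel₀ (mul_ne_zero this this)
      linear_combination e0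
    have f1 : g2 q p.1 p.2 * g0 q p'.1 p'.2 - g0 q p.1 p.2 * g2 q p'.1 p'.2 = 0 := by
      have : (qn q)⁻¹ ≠ 0 := inv_ne_zero hn
      apply mul_left_cancel₀ (mul_ne_zero this this)
      linear_combination e1
    have f2 : g0 q p.1 p.2 * g1 q p'.1 p'.2 - g1 q p.1 p.2 * g0 q p'.1 p'.2 = 0 := by
      have : (qn q)⁻¹ ≠ 0 := inv_ne_zero hn
      apply mul_left_cancel₀ (mul_ne_zero this this)
      linear_combination e2
    rw [f0, f1, f2]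
    ring

end Vale.Agent.P054.Y.G
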